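import Crest.Agent.X212.Add68.Tm
import Crest.Agent.X212.Ix82.Dir

/-!
# Row 212, lane IND-S (helper68): D-ADD and D-RIT, additivity and the relative index theorem
-/

set_option autoImplicit false
set_option linter.unusedSectionVars false
noncomputable section
open scoped Manifold ContDiff Topology InnerProductSpace
open MeasureTheory Set Function Filter

namespace Crest.Agent.X212.Add68
open An An.Pre Sob92 Cyf70 Pb50 Cut71 Ix82
open M (Mf pm)

variable {κ U : Type} [Fintype κ] [NormedAddCommGroup U] [InnerProductSpace ℝ U]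
  [FiniteDimensional ℝ U] {M M' M₁ M₂ M₃ M₄ : DM κ U}

theorem DLit.symm {φ} (h : M.Lit M' φ) : M'.Lit M φ.symm :=
  ⟨iso_symm h.iso, fun y hy => by rw [← h.d _ (φ.map_target hy), φ.right_inv hy]⟩

theorem DLit.trans {φ ψ} (h : M₁.Lit M₂ φ) (h' : M₂.Lit M₃ ψ) (l₁ : M₁.Loc) (l₃ : M₃.Loc) :
    M₁.Lit M₃ (φ.trans ψ) :=
  ⟨iso_trans h.iso h'.iso l₁.ok.isv l₃.ok.isv, fun x hx => (h'.d _ hx.2).trans (h.d x hx.1)⟩

/-- excision for modules -/
theorem exc_dm {a b c d t1 t2 t3 t4}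
    (h : T4 M₁.F.toPre M₂.F.toPre M₃.F.toPre M₄.F.toPre a b c d t1 t2 t3 t4)
    (k : IsCompact {z | |t4 z| ≤ 1 / 2}) (la : M₃.Lit M₁ a) (lb : M₃.Lit M₂ b) (lc : M₄.Lit M₁ c)
    (ld : M₄.Lit M₂ d) (S1 : Sy M₁.F M₁.op 7 M₁.H) (S2 : Sy M₂.F M₂.op 7 M₂.H)
    (S3 : Sy M₃.F M₃.op 7 M₃.H) (S4 : Sy M₄.F M₄.op 7 M₄.H) {n1 n2 n3 n4 : ℤ} (i1 : M₁.Ix n1)
    (i2 : M₂.Ix n2) (i3 : M₃.Ix n3) (i4 : M₄.Ix n4) : n3 + n4 = n1 + n2 := by
  have key : ∀ {M M' : DM κ U} {φ c t t'}, Li M.F.toPre M'.F.toPre φ c t t' → M.Lit M' φ →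
      Continuous t → IsCompact {x | |t x| ≤ 1 / 2} → Sy M.F M.op 7 M.H → Sy M'.F M'.op 7 M'.H →
      Bl φ (fun x => pr c (t x)) M.H M'.H := fun h l ht hc S S' =>
    bl_loc h ht hc S S' (by omega) (fun x hx => congrArg DF.p₀ (l.d x hx).symm)
      (fun x hx => congrArg DF.p₁ (l.d x hx).symm)
      (fun a x hx => congrArg (fun d : DF κ U => d.ρ a * d.p₀) (l.d x hx).symm)
      fun x hx => congrArg DF.B (l.d x hx).symm
  exact exc h.r4 (by omega) S1 S2 S3 S4 (key h.la la h.h3.cont (h.cpt k) S3 S1)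
    (key h.lb lb h.h3.cont (h.cpt k) S3 S2) (key h.lc lc h.h4.cont k S4 S1)
    (key h.ld ld h.h4.cont k S4 S2) i1 i2 i3 i4

theorem sy_of (hT : DTame κ U) {N : Type} [Fintype N] {k : N → EnS M} (h : M.OK k) :
    Sy M.F M.op 7 M.H := Sy.loc (hT M N k h).1 (hT M N k h).2.1

theorem cb_pm (e : DE κ U) (c s : Bool) (a : ℝ) : e.cyl.F.Cb fun x => pr c (pm s * x.2 + a) := by
  have h := cb_st (F := e.F.toPre) (s := s) (-(a + 1 / 2))
  have h1 : ContDiff ℝ ∞ fun r => if c then Real.cos (Real.pi / 2 * r)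
      else Real.sin (Real.pi / 2 * r) := by
    cases c <;> simp only [if_true, Bool.false_eq_true, if_false] <;> fun_prop
  have h2 := Cb_nem h1 h
  simp only [sub_neg_eq_add, ← add_assoc] at h2
  exact h2

section ht
variable {J : Type} [Fintype J] {e : J → DE κ U} {s : J → Bool} (k : ∀ j, En (e j) (s j) M)
  {x : M.X.M} {j : J}

/-- the height in the ends `k` -/
def ht (x : M.X.M) : ℝ := ∑ j, max 0 (pm (s j) * (k j).tm x)

/-- disjoint ends -/
abbrev Dj : Prop := Pairwise fun i j => Disjoint (k i).ψ.target (k j).ψ.target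

theorem ht_cont : Continuous (ht k) := continuous_finsetSum _ fun j _ =>
  continuous_const.max (continuous_const.mul (k j).cont)

theorem tgt_iff : x ∈ (k j).ψ.target ↔ 0 < pm (s j) * (k j).tm x := by rw [(k j).tgt]; rfl

theorem src_iff {z} : z ∈ (k j).ψ.source ↔ 0 < pm (s j) * z.2 := by rw [(k j).src]; rfl

theorem ht_zero (h : ∀ j, x ∉ (k j).ψ.target) : ht k x = 0 :=
  Finset.sum_eq_zero fun j _ => max_eq_left (not_lt.1 fun e => h j ((tgt_iff k).2 e))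

theorem le_ht (j : J) : pm (s j) * (k j).tm x ≤ ht k x := (le_max_right _ _).trans
  (Finset.single_le_sum (f := fun j => max 0 (pm (s j) * (k j).tm x)) (fun _ _ => le_max_left _ _)
    (Finset.mem_univ j))

theorem ht_pos (h : 0 < ht k x) : ∃ j, ∃ z ∈ (k j).ψ.source, x = (k j).ψ z := by
  by_contra e
  exact h.ne' (ht_zero k fun j hj => e ⟨j, _, (k j).ψ.map_target hj, ((k j).ψ.right_inv hj).symm⟩)

variable {k} (hd : Dj k)
include hd

theorem ht_ψ {z} (hz : z ∈ (k j).ψ.source) : ht k ((k j).ψ z) = pm (s j) * z.2 := by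
  rw [ht, Finset.sum_eq_single j (fun i _ hi => max_eq_left (not_lt.1 fun e =>
    disjoint_left.1 (hd hi) ((tgt_iff k).2 e) ((k j).ψ.map_source hz))) (by simp),
    (k j).tm_ψ z hz, max_eq_right ((src_iff k).1 hz).le]

theorem ht_lt : (∀ j, pm (s j) * (k j).tm x < 4) ↔ ht k x < 4 := by
  refine ⟨fun h => lt_of_not_ge fun e => ?_, fun h j => (le_ht k j).trans_lt h⟩
  obtain ⟨j, z, hz, rfl⟩ := ht_pos k (four_pos.trans_le e)
  have := h j
  rw [(k j).tm_ψ z hz, ← ht_ψ hd hz] at this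
  exact this.not_ge e

theorem cb_ht {g : ℝ → ℝ} (hg : ∀ j, (e j).cyl.F.Cb fun x => g (pm (s j) * x.2))
    (h1 : ∀ r ≤ 1, g r = g 0) : M.F.Cb fun x => g (ht k x) := by
  choose C hC using fun j => cb_loc (F := M.F) (F' := (e j).cyl.F) (φ := (k j).ψ.symm)
    (iso_symm (iso_symm (k j).lit.iso)) (f := fun x => g (ht k x)) (fun x hx => by
      rw [← ht_ψ hd ((k j).ψ.map_target hx), (k j).ψ.right_inv hx]) (hg j)
  have key : ∀ x, (∃ j, x ∈ (k j).ψ.target) ∨ (fun x => g (ht k x)) =ᶠ[𝓝 x] fun _ => g 0 := fun x =>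
    (em _).imp_right fun h => ((ht_cont k).continuousAt.eventually_lt_const
      ((ht_zero k (not_exists.1 h)).trans_lt one_pos)).mono fun y hy => h1 _ hy.le
  refine Cb_of_bdd (fun x => (key x).elim (fun ⟨j, h⟩ => (hC j x h).1) fun h =>
    contMDiffAt_const.congr_of_eventuallyEq h) fun w => ?_
  obtain ⟨B, hB⟩ := Finite.exists_le fun j => C j w.length
  exact ⟨max B ‖g 0‖, fun x => (key x).elim
    (fun ⟨j, h⟩ => ((hC j x h).2 w).trans ((hB j).trans (le_max_left _ _))) fun h =>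
      (Prm93.Dw_congr (F := M.F.toPre) w h).symm ▸ (CB_const _ _ w le_rfl x).trans (le_max_right _ _)⟩

theorem ti_ht : Ti M.F.toPre fun x => ht k x - 2 :=
  ⟨(ht_cont k).sub continuous_const, fun c => cb_ht hd (g := fun r => pr c (r - 2))
    (fun j => cb_pm _ c _ _) fun r hr => pr_eq (b := true) (by simp only [pm, if_true]; linarith)
      (by norm_num [pm]) c⟩

theorem ti_ht' : Ti M.F.toPre fun x => 2 - ht k x :=
  ⟨continuous_const.sub (ht_cont k), fun c => cb_ht hd (g := fun r => pr c (2 - r))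
    (fun j => by simpa only [pm_not, neg_mul, neg_add_eq_sub] using cb_pm (e j) c (!s j) 2)
    fun r hr => pr_eq (b := false) (by simp only [pm, Bool.false_eq_true, if_false]; linarith)
      (by norm_num [pm]) c⟩

end ht

section gl
variable {J : Type} [Fintype J] {e : J → DE κ U} {s : J → Bool} {k₁ : ∀ j, En (e j) (s j) M₁}
  {k₂ : ∀ j, En (e j) (!s j) M₂} {l r} (g : Gl M k₁ k₂ l r) (d₁ : Dj k₁) (d₂ : Dj k₂)
include g d₁ d₂

theorem gl_s₁ {x} : x ∈ l.source ↔ ht k₁ x < 4 := by rw [g.s₁]; exact ht_lt d₁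

theorem gl_s₂ {x} : x ∈ r.source ↔ ht (s := fun j => !s j) k₂ x < 4 := by
  rw [g.s₂]; exact ht_lt (s := fun j => !s j) d₂

theorem gl_nk {j y t} (h : pm (s j) * t ∈ Ioo (0 : ℝ) 4) : (k₁ j).ψ (y, t) ∈ l.source ∧
    ht k₁ ((k₁ j).ψ (y, t)) = pm (s j) * t ∧ (k₂ j).ψ (y, t - 4 * pm (s j)) ∈ r.source ∧
    ht (s := fun j => !s j) k₂ ((k₂ j).ψ (y, t - 4 * pm (s j))) = 4 - pm (s j) * t := by
  have e : pm (!s j) * (t - 4 * pm (s j)) = 4 - pm (s j) * t := by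
    rw [pm_not]; linear_combination 4 * pm_sq (s j)
  have a := ht_ψ d₁ ((src_iff k₁ (z := (y, t))).2 h.1)
  have b := (ht_ψ (s := fun j => !s j) d₂ ((src_iff (s := fun j => !s j) k₂
    (z := (y, t - 4 * pm (s j)))).2 (e ▸ sub_pos.2 h.2))).trans e
  exact ⟨(gl_s₁ g d₁ d₂).2 (a ▸ h.2), a, (gl_s₂ g d₁ d₂).2 (b ▸ sub_lt_self _ h.1), b⟩

/-- the time on a gluing -/
theorem gl_time : ∃ T, Ti M.F.toPre T ∧
    Li M.F.toPre M₁.F.toPre l.symm true T (fun x => ht k₁ x - 2) ∧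
    Li M.F.toPre M₂.F.toPre r.symm false T fun x => 2 - ht (s := fun j => !s j) k₂ x := by
  classical
  let T : M.X.M → ℝ := fun x => if x ∈ r.target then 2 - ht (s := fun j => !s j) k₂ (r.symm x) else -2
  have t2 : ∀ x ∈ r.target, T x = 2 - ht (s := fun j => !s j) k₂ (r.symm x) := fun x hx => if_pos hx
  have t1 : ∀ x ∈ l.target, T x = ht k₁ (l.symm x) - 2 := fun x hx => by
    by_cases e : x ∈ r.target
    · obtain ⟨j, _, ⟨⟨y, t⟩, h, rfl⟩, rfl⟩ := mem_iUnion.1 (g.cap.le ⟨hx, e⟩)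
      obtain ⟨a1, a2, a3, a4⟩ := gl_nk g d₁ d₂ (y := y) h
      rw [t2 _ e, l.left_inv a1, a2, g.nk j y t h, r.left_inv a3, a4]
      ring
    · rw [show T x = -2 from if_neg e, ht_zero k₁ fun j hj => e ?_, zero_sub]
      have a := (k₁ j).ψ.map_target hj
      have b := ht_ψ d₁ a
      rw [(k₁ j).ψ.right_inv hj] at b
      exact (g.cap.ge (mem_iUnion.2 ⟨j, _, ⟨_, ⟨(src_iff k₁).1 a, b ▸ (gl_s₁ g d₁ d₂).1
        (l.map_target hx)⟩, (k₁ j).ψ.right_inv hj⟩, l.right_inv hx⟩)).2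
  have cv : ∀ x, x ∈ l.target ∨ x ∈ r.target := fun x => (g.cov ▸ mem_univ x : x ∈ _ ∪ _)
  refine ⟨T, ⟨continuous_iff_continuousAt.2 fun x => ?_, fun c => cb_glue g.l₁.iso g.l₂.iso g.cov
      (fun x hx => by rw [t1 _ (l.map_source hx), l.left_inv hx])
      (fun x hx => by rw [t2 _ (r.map_source hx), r.left_inv hx]) ((ti_ht d₁).cb c)
      ((ti_ht' (s := fun j => !s j) d₂).cb c)⟩,
    ⟨iso_symm g.l₁.iso, fun x hx => by_contra fun e => ?_, fun x hx => (gl_s₁ g d₁ d₂).2 ?_, t1⟩,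
    ⟨iso_symm g.l₂.iso, fun x hx => by_contra fun e => ?_, fun x hx => (gl_s₂ g d₁ d₂).2 ?_, t2⟩⟩
  · rcases cv x with h | h
    · exact (((ht_cont k₁).continuousAt.comp (l.continuousAt_symm h)).sub continuousAt_const).congr
        ((l.open_target.eventually_mem h).mono fun y hy => (t1 y hy).symm)
    · exact (continuousAt_const.sub ((ht_cont _).continuousAt.comp (r.continuousAt_symm h))).congr
        ((r.open_target.eventually_mem h).mono fun y hy => (t2 y hy).symm)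
  · have h := (cv x).resolve_left e
    simp only [pm, if_true, t2 x h] at hx
    obtain ⟨j, ⟨y, t⟩, hz, a⟩ := ht_pos (s := fun j => !s j) k₂ (x := r.symm x) (by linarith)
    have b := (gl_s₂ g d₁ d₂).1 (r.map_target h)
    have c := (src_iff (s := fun j => !s j) k₂).1 hz
    rw [a, ht_ψ (s := fun j => !s j) d₂ hz] at b
    rw [pm_not] at b c
    have m : pm (s j) * (t + 4 * pm (s j)) ∈ Ioo (0 : ℝ) 4 :=
      ⟨by linarith [pm_sq (s j)], by linarith [pm_sq (s j)]⟩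
    have n := g.nk j y _ m
    rw [add_sub_cancel_right, ← a, r.right_inv h] at n
    exact e (n ▸ l.map_source (gl_nk g d₁ d₂ m).1)
  · simp only [pm, if_true] at hx; linarith
  · rw [show T x = -2 from if_neg e] at hx
    norm_num [pm] at hx
  · simp only [pm, Bool.false_eq_true, if_false] at hx; linarith

end gl

theorem dj_inl {J N : Type} {e : J → DE κ U} {s : J → Bool} {k : ∀ j, En (e j) (s j) M}
    {r : N → EnS M} (h : M.OK (Sum.elim (bd k) r)) : Dj k := fun i j e =>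
  h.dj (show (Sum.inl i : J ⊕ N) ≠ .inl j from fun k => e (Sum.inl.inj k))

/-- the ends of the cylinder -/
def cyE (e : DE κ U) (s : Bool) : En e s e.cyl where
  ψ := .ofSet {x | 0 < pm s * x.2} (isOpen_lt continuous_const (by fun_prop))
  tm := Prod.snd
  src := rfl
  tgt := rfl
  cont := continuous_snd
  tm_ψ _ _ := rfl
  lit := ⟨⟨contMDiffOn_id, contMDiffOn_id, fun a x _ => congrArg (· (e.cyl.F.e a x)) mfderiv_id,
    Measure.map_id⟩, fun _ _ => rfl⟩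

theorem cyl_ok {e : DE κ U} (he : e.OK) : e.cyl.OK (bd (e := fun _ => e) (s := id) (cyE e)) := by
  refine ⟨he.loc, inferInstanceAs (ConnectedSpace (_ × ℝ)), fun _ => he, fun i j h =>
    disjoint_left.2 fun x (a : 0 < pm i * x.2) (b : 0 < pm j * x.2) => ?_, fun T =>
    (isCompact_univ.prod (isCompact_Icc (a := -T) (b := T))).of_isClosed_subset ?_ fun x hx => ?_⟩
  · rw [Bool.eq_not_of_ne h, pm_not] at a
    linarith
  · rw [ofPred_forall]
    exact isClosed_iInter fun i => isClosed_le (continuous_const.mul continuous_snd) continuous_const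
  · have a : pm true * x.2 ≤ T := hx true
    have b : pm false * x.2 ≤ T := hx false
    simp only [pm, if_true, Bool.false_eq_true, if_false] at a b
    exact ⟨trivial, by linarith, by linarith⟩

/-- **D-ADD** -/
theorem dAdd (hT : DTame κ U) : DAdd κ U := by
  intro M₁ M₂ M J N₁ N₂ _ _ _ e s e₁ s₁ e₂ s₂ k₁ k₂ r₁ r₂ r₁' r₂' l r G ⟨u⟩ inv n₁ n₂ n i₁ i₂ i
  have d₁ := dj_inl G.ok₁
  have d₂ := dj_inl (s := fun j => !s j) G.ok₂
  obtain ⟨T, t3, la, lb⟩ := gl_time G.gl d₁ d₂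
  obtain ⟨j, hj⟩ : ∃ j : J, ∀ i, i = j := ⟨default, u.uniq⟩
  have he : (e j).OK := G.ok₁.en (.inl j)
  have q := pm_sq (s j)
  have ld : (e j).cyl.Lit M₂ ((Cht98.tau _ (-(4 * pm (s j)))).toOpenPartialHomeomorph.trans
      (k₂ j).ψ) := DLit.trans ⟨Cht98.iso_tau _ _, fun _ _ => rfl⟩ (k₂ j).lit he.loc G.ok₂.loc
  have := exc_dm (M₄ := (e j).cyl) (t4 := fun x => pm (s j) * x.2 + -2)
    ⟨ti_ht d₁, ti_ht' (s := fun j => !s j) d₂, t3, ⟨by fun_prop, fun c => cb_pm _ c _ _⟩, la, lb,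
      ⟨(k₁ j).lit.iso, fun x hx => (src_iff k₁).2 ?_, fun x hx => ?_, fun x hx => ?_⟩,
      ⟨ld.iso, fun x hx => ⟨trivial, (src_iff (s := fun j => !s j) k₂).2 ?_⟩,
        fun x hx => ⟨?_, trivial⟩, fun x hx => ?_⟩, fun z hz => ?_⟩
    ((isCompact_univ.prod (isCompact_Icc (a := -3) (b := 3))).of_isClosed_subset
      (isClosed_le (by fun_prop) continuous_const) fun x hx => ⟨trivial, abs_le.1 ?_⟩)
    (DLit.symm G.gl.l₁) (DLit.symm G.gl.l₂) (k₁ j).lit ld (sy_of hT G.ok₁) (sy_of hT G.ok₂)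
    (sy_of hT G.ok) (sy_of hT (cyl_ok he)) i₁ i₂ i (.of_bijective (inv j))
  · omega
  · simp only [pm, Bool.false_eq_true, if_false] at hx ⊢; linarith
  · obtain ⟨i, z, hz, rfl⟩ := ht_pos k₁ (x := x) (by
      simp only [pm, Bool.false_eq_true, if_false] at hx; linarith)
    exact hj i ▸ (k₁ i).ψ.map_source hz
  · exact (congrArg (· - 2) (ht_ψ d₁ hx)).symm
  · show 0 < pm (!s j) * (x.2 + -(4 * pm (s j)))
    rw [pm_not]
    rw [show pm true = 1 from rfl] at hx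
    linarith
  · obtain ⟨i, z, hz, rfl⟩ := ht_pos (s := fun j => !s j) k₂ (x := x) (by
      rw [show pm true = 1 from rfl] at hx; linarith)
    exact hj i ▸ (k₂ i).ψ.map_source hz
  · have := ht_ψ (s := fun j => !s j) d₂ (z := (x.1, x.2 + -(4 * pm (s j)))) hx.2
    refine .trans ?_ (congrArg (2 - ·) this.symm)
    rw [pm_not]
    linarith
  · have m : pm (s j) * z.2 ∈ Ioo (0 : ℝ) 4 :=
      ⟨by linarith [(abs_le.1 hz).1], by linarith [(abs_le.1 hz).2]⟩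
    exact (congrArg r.symm (G.gl.nk j z.1 z.2 m)).trans (r.left_inv (gl_nk G.gl d₁ d₂ m).2.2.1)
  · have hx := abs_le.1 (show |pm (s j) * x.2 + -2| ≤ 1 / 2 from hx)
    rw [← abs_pm (s j), abs_le]
    exact ⟨by linarith [hx.1], by linarith [hx.2]⟩

theorem ok_emp {J : Type} {k : J → EnS M} (h : M.OK k) (r : Empty → EnS M) : M.OK (Sum.elim k r) :=
  ⟨h.loc, h.con, fun | .inl i => h.en i, fun | .inl _, .inl _, e => h.dj fun k => e (k ▸ rfl),
    fun T => by simpa using h.cpt T⟩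

theorem cpt_emp {J : Type} [IsEmpty J] {k : J → EnS M} (h : M.OK k) : CompactSpace M.X.M :=
  ⟨by simpa using h.cpt 0⟩

/-- **D-RIT** -/
theorem dRit (hT : DTame κ U) (hC : DClo κ U) (hM : DMir κ U) (hG : DGlu κ U) (hI : DInt κ U) :
    DRit κ U := by
  intro M M' N _ e s k k' ok ok' n n' i i'
  rcases isEmpty_or_nonempty N with _ | _
  · rw [hC M (cpt_emp ok) ok.loc n i, hC M' (cpt_emp ok') ok'.loc n' i', sub_self, sub_self]
  obtain ⟨F, d, -, kD, okD⟩ := hM M N e s k ok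
  have gl := fun (M₀ : DM κ U) (k₀ : ∀ i, En (e i) (s i) M₀) (h : M₀.OK (bd k₀)) =>
    hG M₀ _ N Empty Empty e s nofun nofun nofun nofun k₀ kD nofun nofun (ok_emp h _) (ok_emp okD _)
  obtain ⟨Z, _, _, l, r, G⟩ := gl M k ok
  obtain ⟨Z', _, _, l', r', G'⟩ := gl M' k' ok'
  have cl : ∀ {Z : DM κ U} {k : Empty ⊕ Empty → EnS Z}, Z.OK k → ∃ n : ℤ, Z.Ix n ∧ n = Z.int Z.dn :=
    fun {Z k} h =>
      have := cpt_emp h
      have f := Ell97.fr (hT Z _ k h).1.choose_spec (hT Z _ k h).2.1.choose_spec (hT Z _ k h).2.2 7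
      ⟨_, f, hC Z this h.loc _ f⟩
  obtain ⟨m, im, em⟩ := cl G.ok
  obtain ⟨m', im', em'⟩ := cl G'.ok
  have dD : Dj (s := fun j => !s j) kD := okD.dj
  obtain ⟨T, t3, la, lb⟩ := gl_time G.gl ok.dj dD
  obtain ⟨T', t2, ld, lb'⟩ := gl_time G'.gl ok'.dj dD
  obtain ⟨Φ, hs, ht', hΦ⟩ := exists_union (fun j => (k' j).ψ.symm.trans (k j).ψ)
    (fun i j h => (ok'.dj h).mono inter_subset_left inter_subset_left)
    fun i j h => (ok.dj h).mono inter_subset_left inter_subset_left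
  have lj := fun j => DLit.trans (DLit.symm (k' j).lit) (k j).lit ok'.loc ok.loc
  have sj : ∀ j, ∀ z ∈ (k' j).ψ.source, z ∈ (k j).ψ.source ∧
      (k' j).ψ z ∈ ((k' j).ψ.symm.trans (k j).ψ).source ∧ Φ ((k' j).ψ z) = (k j).ψ z := by
    intro j z hz
    have a := (src_iff k).2 ((src_iff k').1 hz)
    have b : (k' j).ψ z ∈ ((k' j).ψ.symm.trans (k j).ψ).source :=
      ⟨(k' j).ψ.map_source hz, show (k' j).ψ.symm _ ∈ _ by rwa [(k' j).ψ.left_inv hz]⟩
    exact ⟨a, b, (hΦ j b).trans (congrArg _ ((k' j).ψ.left_inv hz))⟩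
  have lc : M'.Lit M Φ := ⟨iso_union (fun j => (lj j).iso) hs hΦ ok'.loc.ok.isv ok.loc.ok.isv,
    fun x hx => let ⟨j, hj⟩ := mem_iUnion.1 (hs ▸ hx); hΦ j hj ▸ (lj j).d x hj⟩
  have lB := DLit.trans (DLit.symm G.gl.l₂) G'.gl.l₂ G.ok.loc G'.ok.loc
  have ss : ∀ x, x ∈ r.source ↔ x ∈ r'.source := fun x => by rw [G.gl.s₂, G'.gl.s₂]
  have := exc_dm ⟨ti_ht ok.dj, t2, t3, ti_ht ok'.dj, la,
      ⟨lB.iso, fun x hx => ⟨lb.s x hx, (ss _).1 (r.map_target (lb.s x hx))⟩,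
        fun x hx => ⟨lb'.s x hx, (ss _).2 (r'.map_target (lb'.s x hx))⟩,
        fun x hx => (lb.e x hx.1).trans (lb'.e.symm _ hx.2)⟩,
      ⟨lc.iso, fun x hx => ?_, fun x hx => ?_, fun x hx => ?_⟩,
      ⟨G'.gl.l₁.iso, ld.s', ld.s, ld.e.symm⟩, fun z hz => ?_⟩
    ((ok'.cpt 3).of_isClosed_subset (isClosed_le (ti_ht ok'.dj).cont.abs continuous_const)
      fun x hx j => (le_ht k' j).trans (by linarith [(abs_le.1 (show |ht k' x - 2| ≤ _ from hx)).2]))
    (DLit.symm G.gl.l₁) lB lc G'.gl.l₁ (sy_of hT ok) (sy_of hT G'.ok) (sy_of hT G.ok) (sy_of hT ok')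
    i im' im i'
  · have a := (hI _ _ _ _ _ _ _ _ _ _ _ _ _ _ _ _ _ _ _ _ G).1
    have b := (hI _ _ _ _ _ _ _ _ _ _ _ _ _ _ _ _ _ _ _ _ G').1
    have c : (m : ℝ) + n' = n + m' := by exact_mod_cast this
    linarith
  · obtain ⟨j, z, hz, rfl⟩ := ht_pos k' (x := x) (by
      simp only [pm, Bool.false_eq_true, if_false] at hx; linarith)
    exact hs ▸ mem_iUnion.2 ⟨j, (sj j z hz).2.1⟩
  · obtain ⟨j, z, hz, rfl⟩ := ht_pos k (x := x) (by
      simp only [pm, Bool.false_eq_true, if_false] at hx; linarith)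
    obtain ⟨-, b, c⟩ := sj j z ((src_iff k').2 ((src_iff k).1 hz))
    exact c ▸ Φ.map_source (hs ▸ mem_iUnion.2 ⟨j, b⟩)
  · obtain ⟨j, hj⟩ := mem_iUnion.1 (hs ▸ hx)
    have a := (k' j).ψ.map_target hj.1
    obtain ⟨b, -, c⟩ := sj j _ a
    rw [← (k' j).ψ.right_inv hj.1]
    simp only [c, ht_ψ ok'.dj a, ht_ψ ok.dj b]
  · obtain ⟨j, ⟨y, t⟩, hw, rfl⟩ := ht_pos k' (x := z) (by linarith [(abs_le.1 hz).1])
    rw [ht_ψ ok'.dj hw] at hz
    have m : pm (s j) * t ∈ Ioo (0 : ℝ) 4 :=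
      ⟨by linarith [(abs_le.1 hz).1], by linarith [(abs_le.1 hz).2]⟩
    rw [(sj j _ hw).2.2, G'.gl.nk j y t m]
    exact congrArg r' ((congrArg r.symm (G.gl.nk j y t m)).trans
      (r.left_inv (gl_nk G.gl ok.dj dD m).2.2.1))

end Crest.Agent.X212.Add68
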