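import Crest.Agent.X212.Map77.Tw
import Crest.Agent.X212.Cyf70.Sf
import Crest.Agent.X212.Cht98.Rel
import Crest.Agent.X212.Neck67.Rot
import Crest.Agent.X212.Sob92.Iso
import Crest.Agent.X212.M.Band

/-!
# Row 212, SW-ADD (helper68): excision for operators that agree along partial isometries
-/

set_option autoImplicit false
set_option linter.unusedSectionVars false
noncomputable section
open scoped Manifold ContDiff Topology InnerProductSpace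
open MeasureTheory Set Function Filter

namespace Crest.Agent.X212.Add68
open An An.Pre Sob92 Cyf70
open M (Mf)

section alg
variable {E1 E2 E3 E4 F1 F2 F3 F4 : Type} [NormedAddCommGroup E1] [NormedSpace ℝ E1]
  [NormedAddCommGroup E2] [NormedSpace ℝ E2] [NormedAddCommGroup E3] [NormedSpace ℝ E3]
  [NormedAddCommGroup E4] [NormedSpace ℝ E4] [NormedAddCommGroup F1] [NormedSpace ℝ F1]
  [NormedAddCommGroup F2] [NormedSpace ℝ F2] [NormedAddCommGroup F3] [NormedSpace ℝ F3]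
  [NormedAddCommGroup F4] [NormedSpace ℝ F4]

/-- the block matrix of a rotation -/
def rt (a : E1 →L[ℝ] E3) (b : E2 →L[ℝ] E3) (c : E1 →L[ℝ] E4) (d : E2 →L[ℝ] E4) :
    E1 × E2 →L[ℝ] E3 × E4 := (a.coprod b).prod ((-c).coprod d)

theorem exists_rot {a : E1 →L[ℝ] E3} {b : E2 →L[ℝ] E3} {c : E1 →L[ℝ] E4} {d : E2 →L[ℝ] E4}
    {a' : E3 →L[ℝ] E1} {b' : E3 →L[ℝ] E2} {c' : E4 →L[ℝ] E1} {d' : E4 →L[ℝ] E2}
    (h1 : ∀ u, a' (a u) + c' (c u) = u) (h2 : ∀ u, b' (b u) + d' (d u) = u)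
    (h3 : ∀ u, a (a' u) + b (b' u) = u) (h4 : ∀ u, c (c' u) + d (d' u) = u)
    (k1 : ∀ u, a' (b u) = c' (d u)) (k2 : ∀ u, b' (a u) = d' (c u))
    (k3 : ∀ u, a (c' u) = b (d' u)) (k4 : ∀ u, c (a' u) = d (b' u)) :
    ∃ U : (E1 × E2) ≃L[ℝ] (E3 × E4), (U : E1 × E2 →L[ℝ] E3 × E4) = rt a b c d := by
  refine ⟨ContinuousLinearEquiv.equivOfInverse (rt a b c d)
    ((a'.coprod (-c')).prod (b'.coprod d')) (fun x => Prod.ext ?_ ?_) fun y => Prod.ext ?_ ?_, rfl⟩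
  · show a' (a x.1 + b x.2) + -c' (-c x.1 + d x.2) = x.1
    rw [map_add, map_add, map_neg, k1]
    conv_rhs => rw [← h1 x.1]
    abel
  · show b' (a x.1 + b x.2) + d' (-c x.1 + d x.2) = x.2
    rw [map_add, map_add, map_neg, k2]
    conv_rhs => rw [← h2 x.2]
    abel
  · show a (a' y.1 + -c' y.2) + b (b' y.1 + d' y.2) = y.1
    rw [map_add, map_add, map_neg, k3]
    conv_rhs => rw [← h3 y.1]
    abel
  · show -c (a' y.1 + -c' y.2) + d (b' y.1 + d' y.2) = y.2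
    rw [map_add, map_add, map_neg, k4]
    conv_rhs => rw [← h4 y.2]
    abel

variable [CompleteSpace E1] [CompleteSpace E2] [CompleteSpace E3] [CompleteSpace E4]
  [CompleteSpace F1] [CompleteSpace F2] [CompleteSpace F3] [CompleteSpace F4]

theorem exc_alg {a : E1 →L[ℝ] E3} {b : E2 →L[ℝ] E3} {c : E1 →L[ℝ] E4} {d : E2 →L[ℝ] E4}
    {a' : F1 →L[ℝ] F3} {b' : F2 →L[ℝ] F3} {c' : F1 →L[ℝ] F4} {d' : F2 →L[ℝ] F4}
    (hU : ∃ U : (E1 × E2) ≃L[ℝ] (E3 × E4), (U : E1 × E2 →L[ℝ] E3 × E4) = rt a b c d)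
    (hV : ∃ V : (F1 × F2) ≃L[ℝ] (F3 × F4), (V : F1 × F2 →L[ℝ] F3 × F4) = rt a' b' c' d')
    {D1 : E1 →L[ℝ] F1} {D2 : E2 →L[ℝ] F2} {D3 : E3 →L[ℝ] F3} {D4 : E4 →L[ℝ] F4}
    {n1 n2 n3 n4 : ℤ} (f1 : Fred93.Fr D1 n1) (f2 : Fred93.Fr D2 n2) (f3 : Fred93.Fr D3 n3)
    (f4 : Fred93.Fr D4 n4) (ha : Cq (D3 ∘L a) (a' ∘L D1)) (hb : Cq (D3 ∘L b) (b' ∘L D2))
    (hc : Cq (D4 ∘L c) (c' ∘L D1)) (hd : Cq (D4 ∘L d) (d' ∘L D2)) : n3 + n4 = n1 + n2 := by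
  obtain ⟨U, hU⟩ := hU
  obtain ⟨V, hV⟩ := hV
  have h : Cq (D3.prodMap D4 ∘L (U : E1 × E2 →L[ℝ] E3 × E4))
      ((V : F1 × F2 →L[ℝ] F3 × F4) ∘L D1.prodMap D2) := by
    rw [hU, hV]
    refine Neck67.cpt_congr (Neck67.cpt_block ha hb hc.neg hd) fun x => Prod.ext ?_ ?_
    · simp [rt]; abel
    · simp [rt]; abel
  have e1 := (f3.prodMap f4).comp (Fred93.Fr.equiv U)
  have e2 := h.fr ((Fred93.Fr.equiv V).comp (f1.prodMap f2))
  have := e1.unique e2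
  omega

end alg

variable {X X' X1 X2 X3 X4 : Mf 4} {ι : Type} [Fintype ι]
  {V W : Type} [NormedAddCommGroup V] [InnerProductSpace ℝ V] [FiniteDimensional ℝ V]
  [NormedAddCommGroup W] [InnerProductSpace ℝ W] [FiniteDimensional ℝ W] {k j : ℕ}

/-- a partial isometry with a pair of corresponding cut-off functions -/
structure Lk (F : Pre X.I X.M ι) (F' : Pre X'.I X'.M ι) (φ : OpenPartialHomeomorph X.M X'.M)
    (f : X.M → ℝ) (f' : X'.M → ℝ) : Prop where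
  iso : Iso F F' φ
  cb : F.Cb f
  cb' : F'.Cb f'
  s : tsupport f ⊆ φ.source
  s' : tsupport f' ⊆ φ.target
  eq : ∀ x ∈ φ.source, f x = f' (φ x)

/-- bundles that correspond -/
def Co {N : Type} (φ : OpenPartialHomeomorph X.M X'.M) (p : X.M → N) (p' : X'.M → N) : Prop :=
  ∀ x ∈ φ.source, p x = p' (φ x)

theorem Co.symm {N : Type} {φ : OpenPartialHomeomorph X.M X'.M} {p : X.M → N} {p' : X'.M → N}
    (h : Co φ p p') : Co φ.symm p' p := fun y hy => by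
  rw [h _ (φ.map_target hy)]; exact congrArg p' (φ.right_inv hy).symm

/-- cut off and transport -/
def tr (F : Pre X.I X.M ι) (F' : Pre X'.I X'.M ι) (φ : OpenPartialHomeomorph X.M X'.M) (k : ℕ)
    (p' : X'.M → V →L[ℝ] V) (p : X.M → V →L[ℝ] V) (f' : X'.M → ℝ) : F'.H k p' →L[ℝ] F.H k p :=
  trH F F' φ k p' p fun y => f' y • ContinuousLinearMap.id ℝ V

namespace Lk
variable {F : Pre X.I X.M ι} {F' : Pre X'.I X'.M ι} {φ : OpenPartialHomeomorph X.M X'.M}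
  {f : X.M → ℝ} {f' : X'.M → ℝ} (h : Lk F F' φ f f')
  {p : X.M → V →L[ℝ] V} {p' : X'.M → V →L[ℝ] V}
include h

theorem symm : Lk F' F φ.symm f' f :=
  ⟨iso_symm h.iso, h.cb', h.cb, h.s', h.s, Co.symm h.eq⟩

theorem src {x : X.M} (hx : f x ≠ 0) : x ∈ φ.source := h.s (subset_tsupport f hx)

theorem off {x : X.M} (hx : x ∉ φ.source) : f x = 0 := by_contra fun k => hx (h.src k)

/-- transport with a coefficient field that carries the cut-off function -/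
theorem rep' {q : X.M → W →L[ℝ] W} {g : X'.M → V →L[ℝ] W} (hg : F'.Cb g)
    (hs : tsupport g ⊆ φ.target)
    (hm : ∀ x ∈ φ.source, ∀ v, q x (g (φ x) v) = g (φ x) v) :
    F'.RepT F (trH F F' φ k p' q g) fun u => pull φ fun y => g y (u y) :=
  let ⟨_, hC⟩ := hg
  (rep_trH h.iso hC.1 (hC.2 k) hs fun x hx v _ => hm x hx v).1

theorem rep (hp : Co φ p p') :
    F'.RepT F (tr F F' φ k p' p f') fun u x => f x • u (φ x) := by
  obtain ⟨C, hC⟩ := Cb_smul h.cb' (Cb_const (F := F') (ContinuousLinearMap.id ℝ V))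
  refine RepT_congr (rep_trH h.iso hC.1 (hC.2 k) ((tsupport_smul_subset_left _ _).trans h.s')
    fun x hx v hv => ?_).1 fun u => funext fun x => ?_
  · simp [hp x hx, hv]
  · by_cases hx : x ∈ φ.source
    · simp [pull_of_mem hx, h.eq x hx]
    · simp [pull_of_notMem hx, h.off hx]

theorem val {S S' : ℝ} (hS : Sup F S) (hS' : Sup F' S') (hk : 4 ≤ k) (hp : Co φ p p')
    (u : F'.H k p') (x : X.M) :
    F.val k p (tr F F' φ k p' p f' u) x = f x • F'.val k p' u (φ x) := by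
  have := FiniteDimensional.complete ℝ V
  refine H_eq (f := fun u => F.ev k p x (tr F F' φ k p' p f' u))
    (g := fun u => f x • F'.ev k p' (φ x) u) (by fun_prop) (by fun_prop) (fun u => ?_) u
  simp only [RepT_toH (h.rep hp), (ev_spec hS hk x).1, (ev_spec hS' hk _).1]

theorem sq (hp : Co φ p p') :
    F.Rep (tr F F' φ k p' p f' ∘L tr F' F φ.symm k p p' f) fun u x => (f x * f x) • u x :=
  RepT_congr (RepT_comp (h.rep hp) (h.symm.rep hp.symm)) fun u => funext fun x => by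
    by_cases hx : x ∈ φ.source
    · simp only [← h.eq x hx, φ.left_inv hx, mul_smul]
    · simp [h.off hx]

end Lk

section four
variable {F1 : Pre X1.I X1.M ι} {F2 : Pre X2.I X2.M ι} {F3 : Pre X3.I X3.M ι} {F4 : Pre X4.I X4.M ι}
  {f1 g1 : X1.M → ℝ} {f2 g2 : X2.M → ℝ} {f3 g3 : X3.M → ℝ} {f4 g4 : X4.M → ℝ}
  {p1 : X1.M → V →L[ℝ] V} {p2 : X2.M → V →L[ℝ] V} {p3 : X3.M → V →L[ℝ] V} {p4 : X4.M → V →L[ℝ] V}

theorem sq_add {a : OpenPartialHomeomorph X1.M X3.M} {c : OpenPartialHomeomorph X1.M X4.M}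
    (ha : Lk F1 F3 a f1 f3) (hc : Lk F1 F4 c g1 g4) (pa : Co a p1 p3) (pc : Co c p1 p4)
    (sq : ∀ x, f1 x * f1 x + g1 x * g1 x = 1) (u : F1.H k p1) :
    tr F1 F3 a k p3 p1 f3 (tr F3 F1 a.symm k p1 p3 f1 u) +
      tr F1 F4 c k p4 p1 g4 (tr F4 F1 c.symm k p1 p4 g1 u) = u :=
  DFunLike.congr_fun (RepT_eq (RepT_add (ha.sq pa) (hc.sq pc)) Rep_id fun u => funext fun x => by
    simp only [Pi.add_apply, ← add_smul, sq, one_smul, id]) u

theorem cross {a : OpenPartialHomeomorph X1.M X3.M} {b : OpenPartialHomeomorph X3.M X2.M}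
    {c : OpenPartialHomeomorph X1.M X4.M} {d : OpenPartialHomeomorph X4.M X2.M}
    (ha : Lk F1 F3 a f1 f3) (hb : Lk F3 F2 b g3 g2) (hc : Lk F1 F4 c g1 g4) (hd : Lk F4 F2 d f4 f2)
    (pa : Co a p1 p3) (pb : Co b p3 p2) (pc : Co c p1 p4) (pd : Co d p4 p2)
    (s1 : ∀ x, f1 x * f1 x + g1 x * g1 x = 1) (s3 : ∀ x, f3 x * f3 x + g3 x * g3 x = 1)
    (s4 : ∀ x, f4 x * f4 x + g4 x * g4 x = 1)
    (gl : ∀ x, f1 x ≠ 0 → g1 x ≠ 0 → g3 (a x) = g1 x ∧ f4 (c x) = f1 x ∧ b (a x) = d (c x))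
    (u : F2.H k p2) : tr F1 F3 a k p3 p1 f3 (tr F3 F2 b k p2 p3 g2 u) =
      tr F1 F4 c k p4 p1 g4 (tr F4 F2 d k p2 p4 f2 u) := by
  refine DFunLike.congr_fun (RepT_eq (RepT_comp (ha.rep pa) (hb.rep pb))
    (RepT_comp (hc.rep pc) (hd.rep pd)) fun u => funext fun x => ?_) u
  show f1 x • g3 (a x) • u.1 (b (a x)) = g1 x • f4 (c x) • u.1 (d (c x))
  have e1 := s1 x
  by_cases h1 : f1 x = 0
  · have h2 : g1 x ≠ 0 := fun k => by simp [h1, k] at e1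
    have e4 := s4 (c x)
    rw [← hc.eq x (hc.src h2)] at e4
    have : f4 (c x) = 0 := mul_self_eq_zero.1 (by rw [h1] at e1; linarith)
    simp [h1, this]
  by_cases h2 : g1 x = 0
  · have e3 := s3 (a x)
    rw [← ha.eq x (ha.src h1)] at e3
    have : g3 (a x) = 0 := mul_self_eq_zero.1 (by rw [h2] at e1; linarith)
    simp [h2, this]
  obtain ⟨k1, k2, k3⟩ := gl x h1 h2
  rw [k1, k2, k3, smul_comm]

/-- the data of a rotation: `X3`, `X4` are cut and pasted from `X1`, `X2` -/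
structure R4 (F1 : Pre X1.I X1.M ι) (F2 : Pre X2.I X2.M ι) (F3 : Pre X3.I X3.M ι)
    (F4 : Pre X4.I X4.M ι) (a : OpenPartialHomeomorph X3.M X1.M) (b : OpenPartialHomeomorph X3.M X2.M)
    (c : OpenPartialHomeomorph X4.M X1.M) (d : OpenPartialHomeomorph X4.M X2.M)
    (f1 g1 : X1.M → ℝ) (f2 g2 : X2.M → ℝ) (f3 g3 : X3.M → ℝ) (f4 g4 : X4.M → ℝ) : Prop where
  la : Lk F3 F1 a f3 f1
  lb : Lk F3 F2 b g3 g2
  lc : Lk F4 F1 c g4 g1
  ld : Lk F4 F2 d f4 f2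
  s1 : ∀ x, f1 x * f1 x + g1 x * g1 x = 1
  s2 : ∀ x, f2 x * f2 x + g2 x * g2 x = 1
  s3 : ∀ x, f3 x * f3 x + g3 x * g3 x = 1
  s4 : ∀ x, f4 x * f4 x + g4 x * g4 x = 1
  gl : ∃ (O : Set X4.M) (E : X4.M → X3.M), (∀ z ∈ O, z ∈ c.source ∧ z ∈ d.source ∧ E z ∈ a.source ∧
      E z ∈ b.source ∧ a (E z) = c z ∧ b (E z) = d z ∧ f3 (E z) = f4 z ∧ g3 (E z) = g4 z) ∧
    (∀ x, f1 x ≠ 0 → g1 x ≠ 0 → ∃ z ∈ O, x = c z) ∧ (∀ x, f2 x ≠ 0 → g2 x ≠ 0 → ∃ z ∈ O, x = d z) ∧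
    (∀ x, f3 x ≠ 0 → g3 x ≠ 0 → ∃ z ∈ O, x = E z) ∧ ∀ z, f4 z ≠ 0 → g4 z ≠ 0 → z ∈ O

variable {a : OpenPartialHomeomorph X3.M X1.M} {b : OpenPartialHomeomorph X3.M X2.M}
  {c : OpenPartialHomeomorph X4.M X1.M} {d : OpenPartialHomeomorph X4.M X2.M}

theorem R4.rot (h : R4 F1 F2 F3 F4 a b c d f1 g1 f2 g2 f3 g3 f4 g4) (pa : Co a p3 p1)
    (pb : Co b p3 p2) (pc : Co c p4 p1) (pd : Co d p4 p2) (k : ℕ) :
    ∃ U : (F1.H k p1 × F2.H k p2) ≃L[ℝ] (F3.H k p3 × F4.H k p4),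
      (U : F1.H k p1 × F2.H k p2 →L[ℝ] F3.H k p3 × F4.H k p4) = rt (tr F3 F1 a k p1 p3 f1)
        (tr F3 F2 b k p2 p3 g2) (tr F4 F1 c k p1 p4 g1) (tr F4 F2 d k p2 p4 f2) := by
  obtain ⟨O, E, w, o1, o2, o3, o4⟩ := h.gl
  have t2 : ∀ x, g2 x * g2 x + f2 x * f2 x = 1 := fun x => (add_comm _ _).trans (h.s2 x)
  have t1 : ∀ x, g1 x * g1 x + f1 x * f1 x = 1 := fun x => (add_comm _ _).trans (h.s1 x)
  have t3 : ∀ x, g3 x * g3 x + f3 x * f3 x = 1 := fun x => (add_comm _ _).trans (h.s3 x)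
  have t4 : ∀ x, g4 x * g4 x + f4 x * f4 x = 1 := fun x => (add_comm _ _).trans (h.s4 x)
  refine exists_rot (a' := tr F1 F3 a.symm k p3 p1 f3) (b' := tr F2 F3 b.symm k p3 p2 g3)
    (c' := tr F1 F4 c.symm k p4 p1 g4) (d' := tr F2 F4 d.symm k p4 p2 f4)
    (fun u => sq_add h.la.symm h.lc.symm pa.symm pc.symm h.s1 u)
    (fun u => sq_add h.lb.symm h.ld.symm pb.symm pd.symm t2 u) (sq_add h.la h.lb pa pb h.s3)
    (sq_add h.lc h.ld pc pd t4)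
    (cross h.la.symm h.lb h.lc.symm h.ld pa.symm pb pc.symm pd h.s1 h.s3 h.s4 fun x h1 h2 => ?_)
    (cross h.lb.symm h.la h.ld.symm h.lc pb.symm pa pd.symm pc t2 t3 t4 fun x h1 h2 => ?_)
    (cross h.la h.lc.symm h.lb h.ld.symm pa pc.symm pb pd.symm h.s3 h.s1 h.s2 fun x h1 h2 => ?_)
    (cross h.lc h.la.symm h.ld h.lb.symm pc pa.symm pd pb.symm t4 t1 t2 fun x h1 h2 => ?_)
  · obtain ⟨z, hz, rfl⟩ := o1 x h1 h2
    obtain ⟨w1, w2, w3, w4, w5, w6, w7, w8⟩ := w z hz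
    have e : a.symm (c z) = E z := by rw [← w5, a.left_inv w3]
    rw [e, c.left_inv w1, w8, h.lc.eq z w1, ← w7, h.la.eq _ w3, w5]
    exact ⟨rfl, rfl, w6⟩
  · obtain ⟨z, hz, rfl⟩ := o2 x h2 h1
    obtain ⟨w1, w2, w3, w4, w5, w6, w7, w8⟩ := w z hz
    have e : b.symm (d z) = E z := by rw [← w6, b.left_inv w4]
    rw [e, d.left_inv w2, w7, h.ld.eq z w2, ← w8, h.lb.eq _ w4, w6]
    exact ⟨rfl, rfl, w5⟩
  · obtain ⟨z, hz, rfl⟩ := o3 x h1 h2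
    obtain ⟨w1, w2, w3, w4, w5, w6, w7, w8⟩ := w z hz
    rw [w5, w6, c.left_inv w1, d.left_inv w2, w7, w8, h.lc.eq z w1, h.ld.eq z w2]
    exact ⟨rfl, rfl, rfl⟩
  · obtain ⟨w1, w2, w3, w4, w5, w6, w7, w8⟩ := w x (o4 x h2 h1)
    rw [← w5, ← w6, a.left_inv w3, b.left_inv w4, ← w7, ← w8, h.la.eq _ w3, h.lb.eq _ w4]
    exact ⟨rfl, rfl, rfl⟩

end four

/-- a tame frame with an operator of first order plus a term that gains a derivative -/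
structure Sy (F : Fr X.I X.M ι) (A : Op X.M ι V W) (k : ℕ)
    (D : F.H (k + 1) A.p →L[ℝ] F.H k A.q) : Prop where
  tame : ∃ C, F.Tame C
  good : ∃ C, A.Good F C
  gain : ∃ n : F.H (k + 1) A.p →L[ℝ] F.H (k + 1) A.q, D = A.H F k + F.incl (k + 1) k A.q ∘L n

theorem cpt_of_supp {F : Fr X.I X.M ι} {C : ℕ → ℝ} (hF : F.Tame C) (hk : 4 ≤ k)
    {q : X.M → W →L[ℝ] W} {G S : Type} [NormedAddCommGroup G] [NormedSpace ℝ G] {i : S → G}
    (hi : DenseRange i) (n : G →L[ℝ] F.H (k + 1) q) {K : Set X.M} (hK : IsCompact K)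
    (h : ∀ u, ∀ x ∉ K, F.val k q (F.incl (k + 1) k q (n (i u))) x = 0) :
    IsCompactOperator (F.incl (k + 1) k q ∘L n) := by
  have := FiniteDimensional.complete ℝ W
  obtain ⟨χ, h1, h2, -, h4⟩ := hF.exh K hK
  have hS := Sup.of_tame hF
  refine Neck67.cpt_congr ((Cht98.rellich_smul (q := q) h1.1 h2 k.lt_succ_self).comp_clm n) fun v => ?_
  refine congrFun (hi.equalizer (F.incl (k + 1) k q ∘L n).continuous
    ((smulH F.toPre k q χ ∘L F.incl (k + 1) k q) ∘L n).continuous (funext fun u => ?_)) v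
  refine val_injective hS hk (funext fun x => ?_)
  show F.val k q (F.incl (k + 1) k q (n (i u))) x =
    F.val k q (smulH F.toPre k q χ (F.incl (k + 1) k q (n (i u)))) x
  rw [val_smulH hS hk ⟨_, h1⟩]
  by_cases hx : x ∈ K
  · rw [h4 x hx, one_smul]
  · rw [h u x hx, smul_zero]

section blk
variable {F : Fr X.I X.M ι} {F' : Fr X'.I X'.M ι} {φ : OpenPartialHomeomorph X.M X'.M}
  {f : X.M → ℝ} {f' : X'.M → ℝ} {A : Op X.M ι V W} {A' : Op X'.M ι V W}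

theorem comm {C C' : ℕ → ℝ} (h : Lk F.toPre F'.toPre φ f f') (hA : A.Good F C) (hA' : A'.Good F' C')
    (pp : Co φ A.p A'.p) (pq : Co φ A.q A'.q) (pσ : ∀ a, Co φ (A.σ a) (A'.σ a)) :
    ∃ n : F'.H (k + 1) A'.p →L[ℝ] F.H (k + 1) A.q,
      A.H F k ∘L tr F.toPre F'.toPre φ (k + 1) A'.p A.p f' -
        tr F.toPre F'.toPre φ k A'.q A.q f' ∘L A'.H F' k = F.incl (k + 1) k A.q ∘L n := by
  have hg : F'.Cb fun y => ∑ a, F'.D a f' y • A'.σ a y :=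
    Cb_sum _ fun a _ => Cb_smul (Cb_D h.cb' a) ⟨_, hA'.σ a⟩
  have hs : tsupport (fun y => ∑ a, F'.D a f' y • A'.σ a y) ⊆ φ.target :=
    (closure_minimal (fun y hy => by_contra fun k => mem_support.1 hy (Finset.sum_eq_zero fun a _ => by
      rw [D_def, dv_eq_zero_of_notMem k, zero_smul])) (isClosed_tsupport f')).trans h.s'
  have r1 := h.rep' (k := k + 1) (p' := A'.p) (q := A.q) hg hs fun x hx v => by
    simp only [sum_apply, smul_apply, map_sum, map_smul,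
      pq x hx, hA'.qσ]
  have r2 := RepT_comp (rep_mulH (k := k + 1) (p := A.p) ⟨_, hA.B⟩ (Maps.of_left hA.qB)) (h.rep pp)
  have r3 := RepT_comp (h.rep (k := k + 1) pq)
    (rep_mulH (k := k + 1) (p := A'.p) ⟨_, hA'.B⟩ (Maps.of_left hA'.qB))
  refine ⟨_, RepT_eq (RepT_sub (RepT_comp (rep_OpH hA k).1 (h.rep pp))
    (RepT_comp (h.rep pq) (rep_OpH hA' k).1))
    (RepT_comp (rep_incl k.le_succ) (RepT_sub (RepT_add r1 r2) r3)) fun u => funext fun x => ?_⟩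
  simp only [Pi.sub_apply, Pi.add_apply, id, Op.app, Pre.op]
  by_cases hx : x ∈ φ.source
  · have h1 := (iso_smAt h.iso hx).mdifferentiableAt (by simp)
    have h2 := (u.2.1 (φ x)).mdifferentiableAt (by simp)
    have e : ∀ a, F.D a (fun x => f x • u.1 (φ x)) x =
        F'.D a f' (φ x) • u.1 (φ x) + f x • F'.D a u.1 (φ x) := fun a => by
      refine (dv_smul ((Prm93.Cb.sm h.cb x).mdifferentiableAt (by simp)) (h2.comp x h1)).trans ?_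
      rw [← D_def, ← D_def, iso_D' h.iso a (Prm93.Cb.sm h.cb') h.eq hx, iso_D_comp h.iso hx h2 a]
      rfl
    simp only [pull_of_mem hx, e, map_add, map_smul, pσ _ x hx, sum_apply,
      smul_apply, Finset.sum_add_distrib, smul_add, Finset.smul_sum]
    abel
  · have e : ∀ a, F.D a (fun x => f x • u.1 (φ x)) x = 0 := fun a =>
      dv_eq_zero_of_notMem fun k => hx (h.s (tsupport_smul_subset_left _ _ k))
    simp [pull_of_notMem hx, e, h.off hx]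

variable (φ f) in
/-- operators with corresponding symbols that correspond off a compact set -/
structure Bl (D : F.H (k + 1) A.p →L[ℝ] F.H k A.q) (D' : F'.H (k + 1) A'.p →L[ℝ] F'.H k A'.q) :
    Prop where
  p : Co φ A.p A'.p
  q : Co φ A.q A'.q
  σ : ∀ a, Co φ (A.σ a) (A'.σ a)
  far : ∃ K, IsCompact K ∧ ∀ (u : Sec X'.I A'.p) (w : Sec X.I A.p),
    (∀ x, w.1 x = f x • u.1 (φ x)) → ∀ x ∉ K,
      F.val k _ (D (F.toH _ _ w)) x = f x • F'.val k _ (D' (F'.toH _ _ u)) (φ x)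

/-- **the defect is compact** -/
theorem blk {D : F.H (k + 1) A.p →L[ℝ] F.H k A.q} {D' : F'.H (k + 1) A'.p →L[ℝ] F'.H k A'.q}
    (S : Sy F A k D) (S' : Sy F' A' k D') (h : Lk F.toPre F'.toPre φ f f') (hk : 4 ≤ k)
    (B : Bl φ f D D') :
    Cq (D ∘L tr F.toPre F'.toPre φ (k + 1) A'.p A.p f')
      (tr F.toPre F'.toPre φ k A'.q A.q f' ∘L D') := by
  obtain ⟨pp, pq, pσ, K, hK, far⟩ := B
  obtain ⟨C, hF⟩ := S.tame
  obtain ⟨C', hF'⟩ := S'.tame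
  obtain ⟨n0, e0⟩ := comm (k := k) h S.good.choose_spec S'.good.choose_spec pp pq pσ
  obtain ⟨n, e⟩ := S.gain
  obtain ⟨n', e'⟩ := S'.gain
  have e1 : tr F.toPre F'.toPre φ k A'.q A.q f' ∘L F'.incl (k + 1) k A'.q =
      F.incl (k + 1) k A.q ∘L tr F.toPre F'.toPre φ (k + 1) A'.q A.q f' :=
    RepT_eq (RepT_comp (h.rep pq) (rep_incl k.le_succ)) (RepT_comp (rep_incl k.le_succ) (h.rep pq))
      fun _ => rfl
  have e2 : D ∘L tr F.toPre F'.toPre φ (k + 1) A'.p A.p f' -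
      tr F.toPre F'.toPre φ k A'.q A.q f' ∘L D' = F.incl (k + 1) k A.q ∘L
        (n0 + n ∘L tr F.toPre F'.toPre φ (k + 1) A'.p A.p f' -
          tr F.toPre F'.toPre φ (k + 1) A'.q A.q f' ∘L n') := by
    rw [e, e', ContinuousLinearMap.comp_sub, ContinuousLinearMap.comp_add,
      ContinuousLinearMap.comp_add, ContinuousLinearMap.add_comp, ← e0,
      ← ContinuousLinearMap.comp_assoc _ _ n', e1, ContinuousLinearMap.comp_assoc,
      ContinuousLinearMap.comp_assoc]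
    abel
  rw [Cq, e2]
  refine cpt_of_supp hF hk (F'.dense_toH (k + 1) A'.p) _ hK fun u x hx => ?_
  rw [← ContinuousLinearMap.comp_apply, ← e2, sub_apply, val_sub, Pi.sub_apply,
    ContinuousLinearMap.comp_apply, ContinuousLinearMap.comp_apply, RepT_toH (h.rep pp),
    h.val (Sup.of_tame hF) (Sup.of_tame hF') hk pq, far u _ (fun _ => rfl) x hx, sub_self]

end blk

/-- **excision** -/
theorem exc {F1 : Fr X1.I X1.M ι} {F2 : Fr X2.I X2.M ι} {F3 : Fr X3.I X3.M ι} {F4 : Fr X4.I X4.M ι}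
    {f1 g1 : X1.M → ℝ} {f2 g2 : X2.M → ℝ} {f3 g3 : X3.M → ℝ} {f4 g4 : X4.M → ℝ}
    {a : OpenPartialHomeomorph X3.M X1.M} {b : OpenPartialHomeomorph X3.M X2.M}
    {c : OpenPartialHomeomorph X4.M X1.M} {d : OpenPartialHomeomorph X4.M X2.M}
    {A1 : Op X1.M ι V W} {A2 : Op X2.M ι V W} {A3 : Op X3.M ι V W} {A4 : Op X4.M ι V W}
    {D1 : F1.H (k + 1) A1.p →L[ℝ] F1.H k A1.q} {D2 : F2.H (k + 1) A2.p →L[ℝ] F2.H k A2.q}
    {D3 : F3.H (k + 1) A3.p →L[ℝ] F3.H k A3.q} {D4 : F4.H (k + 1) A4.p →L[ℝ] F4.H k A4.q}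
    (R : R4 F1.toPre F2.toPre F3.toPre F4.toPre a b c d f1 g1 f2 g2 f3 g3 f4 g4) (hk : 4 ≤ k)
    (S1 : Sy F1 A1 k D1) (S2 : Sy F2 A2 k D2) (S3 : Sy F3 A3 k D3) (S4 : Sy F4 A4 k D4)
    (Ba : Bl a f3 D3 D1) (Bb : Bl b g3 D3 D2) (Bc : Bl c g4 D4 D1) (Bd : Bl d f4 D4 D2)
    {n1 n2 n3 n4 : ℤ} (r1 : Fred93.Fr D1 n1) (r2 : Fred93.Fr D2 n2) (r3 : Fred93.Fr D3 n3)
    (r4 : Fred93.Fr D4 n4) : n3 + n4 = n1 + n2 :=
  exc_alg (R.rot Ba.p Bb.p Bc.p Bd.p (k + 1)) (R.rot Ba.q Bb.q Bc.q Bd.q k) r1 r2 r3 r4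
    (blk S3 S1 R.la hk Ba) (blk S3 S2 R.lb hk Bb) (blk S4 S1 R.lc hk Bc) (blk S4 S2 R.ld hk Bd)

end Crest.Agent.X212.Add68
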