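import Crest.Agent.X212.Add68.Hv

/-!
# Row 212, SW-ADD (helper68): excision along a neck
-/

set_option autoImplicit false
set_option linter.unusedSectionVars false
noncomputable section
open scoped Manifold ContDiff Topology InnerProductSpace
open MeasureTheory Set Function Filter

namespace Crest.Agent.X212.Add68
open An An.Pre Sob92 Cyf70 Sw Sw.En3 Map77.S Pb50 Cut71
open M (Mf pm)

variable {κ lam ν : Type} [Fintype κ] [Fintype lam] [Fintype ν] [DecidableEq ν]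
  {X X' XL XR : Mf 4} {nc nc' ncL ncR k : ℕ}

/-- operators between the bundles of the linearisation -/
abbrev DD (b : Bg X.I X.M κ lam ν nc) (c : Sw.Cfg X.M κ ν) (k : ℕ) : Type :=
  b.F.H (k + 1) (full b c).p →L[ℝ] b.F.H k (full b c).q

/-- values on smooth sections -/
def vD {b : Bg X.I X.M κ lam ν nc} {c : Sw.Cfg X.M κ ν} (D : DD b c k)
    (u : Sec X.I (full b c).p) : X.M → Ef κ ν := b.F.val k _ (D (b.F.toH _ _ u))

theorem bl_of {b : Bg X.I X.M κ lam ν nc} {b' : Bg X'.I X'.M κ lam ν nc'} {c c'}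
    {φ : OpenPartialHomeomorph X.M X'.M} (h : b.Lit b' φ) {f : X.M → ℝ} {D : DD b c k}
    {D' : DD b' c' k} (far : ∃ C, IsCompact C ∧ ∀ x ∉ C,
      Mt Subtype.val (vD D) Subtype.val (vD D') φ f x) : Bl φ f D D' :=
  ⟨co_pC h, co_pE h, co_σ h c c', far.imp fun _ h => ⟨h.1, fun u w e x hx => h.2 x hx u w e⟩⟩

theorem nd_lo {e : En3 κ lam ν} (b : Bool) (τ : ℝ) :
    ∀ᶠ x in nd e.Y.M (!b), pm b * (x.2 - τ) ≤ -(1 / 2) :=
  nd_basis.eventually_iff.2 ⟨1 / 2 - pm b * τ, trivial, fun x hx => by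
    have : 1 / 2 - pm b * τ < pm (!b) * x.2 := hx
    rw [pm_not] at this
    linarith⟩

theorem nd_hi {e : En3 κ lam ν} (b : Bool) (τ : ℝ) :
    ∀ᶠ x in nd e.Y.M b, pr (!b) (x.2 - τ) = 1 ∧ pr b (x.2 - τ) = 0 := by
  simpa only [Bool.not_not] using (nd_lo (e := e) (!b) τ).mono fun _ h => pr_lo h

/-- the operator on the cylinder -/
structure Ze {e : En3 κ lam ν} (v : e.YC) (D : DD (X := e.Z) e.cyl (fz v) k) (n : ℤ) : Prop where
  sy : Sy (X := e.Z) e.cyl.F (full e.cyl (fz v)) k D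
  fr : Fred93.Fr D n
  ef : ∀ s, EF Subtype.val (vD D) id s v

variable {d : Dt κ lam ν} [Fintype d.𝓔] {Sl : Type} [Fintype Sl]

/-- the operator on a piece -/
structure Pe (P : PcS d Sl X nc) (β : BCs fun i : d.𝓔 × Sl => d.e i.1) {c : Sw.Cfg X.M κ ν}
    (D : DD P.bg c k) (n : ℤ) : Prop where
  sy : Sy P.bg.F (full P.bg c) k D
  fr : Fred93.Fr D n
  ef : ∀ i s, ∀ K ∈ P.nk i, K.Inf s → EF Subtype.val (vD D) K.ψ s (β i s)

theorem pe_of {P : PcS d Sl X nc} (hP : P.OK) {β : BCs fun i : d.𝓔 × Sl => d.e i.1} {c n}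
    (h : Nf P.bg (P.pt 0) c k n) (hc : ∀ i s, ∀ K ∈ P.nk i, K.Inf s →
      ∀ᶠ x in nd _ s, At K.ψ (fz (β i s)) c x) : ∃ D : DD P.bg c k, Pe P β D n :=
  h.imp fun _ h => ⟨h.1, h.2.1, fun i s K hK hs =>
    ef_nk hP.toOK hK hs (hP.en i).cyl.G.vol (hc i s K hK hs) h.2.2⟩

variable {P : PcS d Sl X nc} {P' : PcS d Sl X' nc'} {ε : d.𝓔} {a a' : Sl} {b : Bool}
  {φ : OpenPartialHomeomorph X'.M X.M} {δ : ℝ} {O : d.𝓔 × Sl → Prop} {π : d.𝓔 × Sl → Sl}
  {K : Nk (d.e ε) P.bg} {K' : Nk (d.e ε) P'.bg} {τ : ℝ} {T : X.M → ℝ}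
  {β β' : BCs fun i : d.𝓔 × Sl => d.e i.1} {c : Sw.Cfg X.M κ ν} {c' : Sw.Cfg X'.M κ ν}
  {D : DD P.bg c k} {D' : DD P'.bg c' k} {n n' : ℤ}

theorem Hv.blC (h : Hv P P' ε a a' b φ δ O π K K' τ) (p' : Pe P' β' D' n') {v : (d.e ε).YC}
    {DZ : DD (X := (d.e ε).Z) (d.e ε).cyl (fz v) k} (z : Ze v DZ n) (hv : β' (ε, a') b = v) :
    Bl (X := (d.e ε).Z) (shK K' (-δ)) (fun x => pr (!b) (x.2 - τ)) DZ D' := by
  have vol := (h.ok.en (ε, a)).cyl.G.vol
  refine bl_of (shK_lit K' _) (far_cyl fun s => ?_)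
  by_cases e : s = b
  · subst e
    exact (z.ef s).one vol (hv ▸ p'.ef (ε, a') s K' h.hK' h.nk.1 :) (δ := -δ)
      ((nd_hi s τ).mono fun x hx => ⟨hx.1, rfl⟩)
  · obtain rfl := Bool.eq_not_of_ne e
    exact (z.ef _).zero vol ((nd_lo b τ).mono fun x hx => (pr_lo hx).2)

theorem Hv.blA (h : Hv P P' ε a a' b φ δ O π K K' τ)
    (hT : ∀ x ∈ φ.source, ∀ c, pr c (T (φ x)) = pr c (K'.tm x + δ - τ)) (p : Pe P β D n)
    (p' : Pe P' β' D' n') (hs : K.Inf (!b) → β' (ε, a') (!b) = β (ε, a) (!b))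
    (ho : ∀ j s, O j → P.Inf j s → β j s = β' (j.1, π j) s)
    (hz : ∀ j ≠ (ε, a), ¬O j → ∀ s, ∀ K₁ ∈ P.nk j, K₁.Inf s →
      ∀ᶠ x in nd _ s, pr b (T (K₁.ψ x)) = 0) : Bl φ.symm (fun x => pr b (T x)) D D' := by
  refine bl_of (lit_symm h.lit) (far_ends h.ok.toOK fun j s K₁ h1 i1 => ?_)
  have vol := (h.ok.en j).cyl.G.vol
  have e1 := p.ef j s K₁ h1 i1
  by_cases e : j = (ε, a)
  · subst e
    obtain rfl := Option.mem_unique h1 h.hK
    by_cases e : s = b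
    · subst e
      refine e1.zero vol ?_
      filter_upwards [nd_hi s τ, ev_J K₁ i1] with x h2 h3
      exact (h.T_nk hT h3 x.1 s).trans h2.2
    · obtain rfl := Bool.eq_not_of_ne e
      refine e1.one vol (hs i1 ▸ p'.ef (ε, a') _ K' h.hK' (h.inf' i1) :) (δ := -δ) ?_
      filter_upwards [nd_lo b τ, ev_J K₁ i1] with x h2 h3
      exact ⟨(h.T_nk hT h3 x.1 b).trans (pr_lo h2).1, (h.sym h3 x.1).2.2⟩
  by_cases o : O j
  · obtain ⟨K₁', h2, i2, h3⟩ := h.oth hT o h1 i1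
    exact e1.one vol (ho j s o ⟨K₁, h1, i1⟩ ▸ p'.ef (j.1, π j) s K₁' h2 i2 :) (h3.mono fun _ h => h.1)
  · exact e1.zero vol (hz j e o s K₁ h1 i1)

/-- **excision along a neck** -/
theorem exc_geo {PL : PcS d Sl XL ncL} {PR : PcS d Sl XR ncR} {aL aR : Sl}
    {φL : OpenPartialHomeomorph XL.M X.M} {φR : OpenPartialHomeomorph XR.M X.M} {δL δR : ℝ}
    {side : d.𝓔 × Sl → Bool} {KL : Nk (d.e ε) PL.bg} {KR : Nk (d.e ε) PR.bg}
    (hL : Hv P PL ε a aL true φL δL (fun j => j ≠ (ε, a) ∧ side j = false) π K KL τ)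
    (hR : Hv P PR ε a aR false φR δR (fun j => j ≠ (ε, a) ∧ side j = true) π K KR τ)
    (cov : φL.target ∪ φR.target = univ) (int : φL.target ∩ φR.target = K.ψ.target) (hk : 4 ≤ k)
    {βL βR : BCs fun i : d.𝓔 × Sl => d.e i.1} {cL cR} {DL : DD PL.bg cL k} {DR : DD PR.bg cR k}
    {v : (d.e ε).YC} {DZ : DD (X := (d.e ε).Z) (d.e ε).cyl (fz v) k} {nL nR nZ : ℤ}
    (p : Pe P β D n) (pL : Pe PL βL DL nL) (pR : Pe PR βR DR nR) (z : Ze v DZ nZ)
    (vL : βL (ε, aL) true = v) (vR : βR (ε, aR) false = v)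
    (bL : K.Inf false → βL (ε, aL) false = β (ε, a) false)
    (bR : K.Inf true → βR (ε, aR) true = β (ε, a) true)
    (bo : ∀ j s, j ≠ (ε, a) → P.Inf j s →
      β j s = if side j then βR (j.1, π j) s else βL (j.1, π j) s) : n + nZ = nL + nR := by
  classical
  let T : X.M → ℝ := fun x => if x ∈ φR.target then KR.tm (φR.symm x) + δR - τ else -1
  have tR : ∀ x ∈ φR.source, ∀ c, pr c (T (φR x)) = pr c (KR.tm x + δR - τ) := fun x hx c => by
    simp only [T, if_pos (φR.map_source hx), φR.left_inv hx]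
  have tL : ∀ x ∈ φL.source, ∀ c, pr c (T (φL x)) = pr c (KL.tm x + δL - τ) := fun x hx c => by
    by_cases e : φL x ∈ K.ψ.target
    · have e1 := (tm_tgt K).1 e
      have e2 := hL.sym e1 (K.ψ.symm (φL x)).1
      rw [nk_eq K e, hR.T_nk tR e1]
      rw [← nk_eq K e, φL.left_inv hx] at e2
      conv_rhs => rw [e2.2.2, KL.tm_ψ _ (src KL e2.1 _), neg_add_cancel_right]
    · rw [show T (φL x) = -1 from if_neg fun k => e (int.le ⟨φL.map_source hx, k⟩)]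
      exact pr_eq (b := true) (by norm_num [pm]) (by linarith [hL.off hx e]) c
  have cb : ∀ c, P.bg.F.Cb fun x => pr c (T x) := fun c =>
    cb_glue hL.lit.iso hR.lit.iso cov (tL · · c) (tR · · c) (hL.cb' c) (hR.cb' c)
  have cv : ∀ x, x ∈ φL.target ∨ x ∈ φR.target := fun x => (cov ▸ mem_univ x : x ∈ _ ∪ _)
  have sL : (tsupport fun x => pr true (T x)) ⊆ φL.target := fun x hx => by_contra fun e =>
    hR.ev_off tR ((cv x).resolve_left e) (fun k => e (int.ge k).1) hx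
  have sR : (tsupport fun x => pr false (T x)) ⊆ φR.target := fun x hx => by_contra fun e =>
    hL.ev_off tL ((cv x).resolve_right e) (fun k => e (int.ge k).2) hx
  refine exc (X4 := (d.e ε).Z) ⟨hL.lkA tL (cb _) sL, hR.lkA tR (cb _) sR, hL.lkC, hR.lkC,
    fun _ => pr_sq _, fun _ => pr_sq _, fun _ => pr_sq _, fun _ => pr_sq _,
    {z | |z.2 - τ| < 1}, K.ψ, fun z hz => ?_, fun _ => hL.far, fun _ h h' => hR.far h' h,
    fun x h h' => ?_, fun _ => pr_mid⟩ hk pL.sy pR.sy p.sy z.sy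
    (hL.blA tL p pL bL (fun j s o i => ?_) fun j e o s K₁ h1 i1 => ?_)
    (hR.blA tR p pR bR (fun j s o i => ?_) fun j e o s K₁ h1 i1 => ?_)
    (hL.blC pL z vL) (hR.blC pR z vR) pL.fr pR.fr p.fr z.fr
  · have m := hL.mid hz
    obtain ⟨l1, l2, l3⟩ := hL.sym m z.1
    obtain ⟨r1, r2, r3⟩ := hR.sym m z.1
    exact ⟨shK_src _ _ l1, shK_src _ _ r1, l2, r2, l3, r3, hR.T_nk tR m _ _, hR.T_nk tR m _ _⟩
  · have e : x ∈ K.ψ.target := int.le ⟨sL (subset_tsupport _ h), sR (subset_tsupport _ h')⟩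
    have e1 := (tm_tgt K).1 e
    rw [nk_eq K e, hR.T_nk tR e1] at h h'
    exact ⟨((K.ψ.symm x).1, K.tm x), pr_mid (b := true) h h', nk_eq K e⟩
  · rw [bo j s o.1 i, o.2]; rfl
  · obtain ⟨_, -, -, h⟩ := hR.oth tR ⟨e, by simpa [e] using o⟩ h1 i1
    exact h.mono fun _ h => h.2
  · rw [bo j s o.1 i, o.2]; rfl
  · obtain ⟨_, -, -, h⟩ := hL.oth tL ⟨e, by simpa [e] using o⟩ h1 i1
    exact h.mono fun _ h => h.2

end Crest.Agent.X212.Add68
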