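import Crest.Agent.X212.Add68.Tm
import Crest.Agent.X212.Add68.Geo
import Crest.Agent.X212.Flo2.Iso

/-!
# Row 212 (helper68): one side of a cut, at the level of necks
-/

set_option autoImplicit false
set_option linter.unusedSectionVars false
noncomputable section
open scoped Manifold ContDiff Topology InnerProductSpace
open MeasureTheory Set Function Filter

namespace Crest.Agent.X212.Add68
open An An.Pre Sob92 Cyf70 Sw Sw.En3 Pb50 Cut71
open M (Mf pm)
open Nd18 (Dp Jv not_Dp)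

variable {κ lam ν : Type} [Fintype κ] [Fintype lam] [Fintype ν] [DecidableEq ν]
  {X X' XL XR : Mf 4} {nc nc' ncL ncR : ℕ} {e : En3 κ lam ν} {g : Bg X.I X.M κ lam ν nc}
  {g' : Bg X'.I X'.M κ lam ν nc'}

/-- the end `K'` on the side `b` is the neck `K` with the shift `δ`; the cut is at the time `τ` -/
structure Hn (K : Nk e g) (K' : Nk e g') (b : Bool) (φ : OpenPartialHomeomorph X'.M X.M)
    (δ τ : ℝ) : Prop where
  lit : g'.Lit g φ
  inf : K'.Inf b
  sd : if b then K.p = K'.p.map (· + δ) else K.q = K'.q.map (· + δ)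
  src : φ.source = {x | x ∉ K'.ψ '' (univ ×ˢ {t ∈ K'.J | t + δ ∉ K.J})}
  app : ∀ y t, t ∈ K'.J → t + δ ∈ K.J → φ (K'.ψ (y, t)) = K.ψ (y, t + δ)
  w1 : ∀ a ∈ K.p, a + 1 ≤ τ
  w2 : ∀ a ∈ K.q, τ + 1 ≤ a

namespace Hn
variable {K : Nk e g} {K' : Nk e g'} {b : Bool} {φ : OpenPartialHomeomorph X'.M X.M} {δ τ t : ℝ}
  {x : X'.M} {T : X.M → ℝ} (h : Hn K K' b φ δ τ)
include h

theorem mem : x ∈ φ.source ↔ (K'.tm x ∈ K'.J → K'.tm x + δ ∈ K.J) := by
  rw [h.src, mem_ofPred, mem_img K' (sep_subset _ _)]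
  simp

theorem inf' (k : K.Inf (!b)) : K'.Inf (!b) := by
  have h2 := h.sd
  cases b
  · exact Option.map_eq_none_iff.1 ((show K.q = _ from h2).symm.trans k)
  · exact Option.map_eq_none_iff.1 ((show K.p = _ from h2).symm.trans k)

theorem mid (k : |t - τ| < 1) : t ∈ K.J :=
  ⟨fun a ha => by linarith [h.w1 a ha, (abs_lt.1 k).1],
    fun a ha => by linarith [h.w2 a ha, (abs_lt.1 k).2]⟩

theorem lo {D : ℝ} (k : (∃ a, K'.p = some a ∧ t ≤ a + D) ∨ ∃ a, K'.q = some a ∧ a - D ≤ t) :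
    pm b * (t + δ - τ) ≤ D - 1 := by
  have h1 := h.inf
  have h2 := h.sd
  cases b <;> simp only [pm, Nk.Inf, if_true, Bool.false_eq_true, if_false] at h1 h2 ⊢ <;>
    rcases k with ⟨a, e, k⟩ | ⟨a, e, k⟩
  · simp [e] at h1
  · linarith [h.w2 (a + δ) (by simp [h2, e])]
  · linarith [h.w1 (a + δ) (by simp [h2, e])]
  · simp [e] at h1

theorem lo' (k : t ∉ K'.J) : pm b * (t + δ - τ) ≤ -1 := by
  have := h.lo (D := 0) (t := t) (by
    by_contra e
    push Not at e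
    exact k ⟨fun a ha => by simpa using e.1 a ha, fun a ha => by simpa using e.2 a ha⟩)
  linarith

theorem fw (k : t ∈ K'.J) (k' : pm b * (t + δ - τ) < 1) : t + δ ∈ K.J := by
  have h2 := h.sd
  cases b <;> simp only [pm, if_true, Bool.false_eq_true, if_false] at h2 k'
  · refine ⟨fun a ha => by linarith [h.w1 a ha], fun a ha => ?_⟩
    obtain ⟨a', h3, rfl⟩ := Option.mem_map.1 (h2 ▸ ha)
    linarith [k.2 a' h3]
  · refine ⟨fun a ha => ?_, fun a ha => by linarith [h.w2 a ha]⟩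
    obtain ⟨a', h3, rfl⟩ := Option.mem_map.1 (h2 ▸ ha)
    linarith [k.1 a' h3]

theorem cb' (c : Bool) : g'.F.Cb fun x => pr c (K'.tm x + δ - τ) :=
  cb_tm K' (h := fun t => pr c (t + δ - τ)) (by simpa only [add_sub_assoc] using cb_pr _ c (δ - τ))
    (c := pr c (-pm b)) fun t ht => pr_eq (b := b) (by
      linarith [h.lo (D := 1 / 2) (t := t) ((not_Dp ht).imp (fun ⟨a, e, k⟩ => ⟨a, e, k.le⟩)
        fun ⟨a, e, k⟩ => ⟨a, e, k.le⟩)]) (by rw [mul_neg, pm_sq]; norm_num) c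

theorem sym (ht : t ∈ K.J) (y : e.Y.M) : t + -δ ∈ K'.J ∧ K.ψ (y, t) ∈ φ.target ∧
    φ.symm (K.ψ (y, t)) = K'.ψ (y, t + -δ) := by
  have k0 : t + -δ + δ ∈ K.J := by simpa using ht
  have h1 : t + -δ ∈ K'.J := deep_zero K' ▸ back h.inf h.sd (D := 0) (deep_zero K ▸ k0 :)
  have h2 : K'.ψ (y, t + -δ) ∈ φ.source := h.mem.2 fun _ => by rwa [K'.tm_ψ _ (Pb50.src K' h1 y)]
  have h3 := h.app y _ h1 k0
  rw [neg_add_cancel_right] at h3
  exact ⟨h1, h3 ▸ φ.map_source h2, by rw [← h3, φ.left_inv h2]⟩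

theorem off (hx : x ∈ φ.source) (k : φ x ∉ K.ψ.target) : pm b * (K'.tm x + δ - τ) ≤ -1 :=
  h.lo' fun e => k (by
    have e1 := h.mem.1 hx e
    have e2 := h.sym e1 (K'.ψ.symm x).1
    rw [add_neg_cancel_right, ← nk_eq K' ((tm_tgt K').2 e)] at e2
    have e3 := φ.right_inv e2.2.1
    rw [e2.2.2] at e3
    exact e3 ▸ K.ψ.map_source (Pb50.src K e1 _))

theorem far {y : X'.M} (k : pr b (K'.tm y + δ - τ) ≠ 0) (k' : pr (!b) (K'.tm y + δ - τ) ≠ 0) :
    ∃ z ∈ {z : e.Y.M × ℝ | |z.2 - τ| < 1}, y = shK K' (-δ) z :=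
  ⟨((K'.ψ.symm y).1, K'.tm y + δ), pr_mid k k', by
    rw [shK_apply, add_neg_cancel_right]
    exact nk_eq K' ((tm_tgt K').2 (by_contra fun e => by linarith [h.lo' e, pr_ne' k']))⟩

theorem lkC : Lk (X := e.Z) e.cyl.F.toPre g'.F.toPre (shK K' (-δ))
    (fun x => pr (!b) (x.2 - τ)) fun x => pr (!b) (K'.tm x + δ - τ) where
  iso := (shK_lit K' _).iso
  cb := cb_pr _ _ _
  cb' := h.cb' _
  s x hx := shK_src K' _ (by_contra fun k => by
    have := ts_le (g := fun x : e.Y.M × ℝ => pm (!b) * (x.2 - τ)) (by fun_prop) (fun _ => pr_ne) hx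
    have k := h.lo' k
    rw [neg_add_cancel_right] at k
    rw [pm_not] at this
    linarith)
  s' x hx := shK_tgt K' _ ((tm_tgt K').2 (by_contra fun e => by
    have := ts_le (g := fun x => pm (!b) * (K'.tm x + δ - τ)) (by have := K'.cont; fun_prop)
      (fun _ => pr_ne) hx
    rw [pm_not] at this
    linarith [h.lo' e]))
  eq x hx := by rw [shK_apply, K'.tm_ψ (x.1, x.2 + -δ) hx.2, neg_add_cancel_right]

variable (hT : ∀ x ∈ φ.source, ∀ c, pr c (T (φ x)) = pr c (K'.tm x + δ - τ))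
include hT

theorem T_sym {x : X.M} (hx : x ∈ φ.target) (c : Bool) :
    pr c (T x) = pr c (K'.tm (φ.symm x) + δ - τ) := by
  rw [← hT _ (φ.map_target hx), φ.right_inv hx]

theorem T_nk (ht : t ∈ K.J) (y : e.Y.M) (c : Bool) : pr c (T (K.ψ (y, t))) = pr c (t - τ) := by
  obtain ⟨h1, h2, h3⟩ := h.sym ht y
  rw [h.T_sym hT h2, h3, K'.tm_ψ _ (Pb50.src K' h1 y), neg_add_cancel_right]

theorem ev_off {x : X.M} (hx : x ∈ φ.target) (k : x ∉ K.ψ.target) :
    x ∉ tsupport fun y => pr (!b) (T y) := by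
  have h1 := h.off (φ.map_target hx) (by rwa [φ.right_inv hx])
  have h2 : ContinuousAt (fun y => pm b * (K'.tm (φ.symm y) + δ - τ)) x :=
    continuousAt_const.mul (((K'.cont.continuousAt.comp (φ.continuousAt_symm hx)).add
      continuousAt_const).sub continuousAt_const)
  refine notMem_tsupport_iff_eventuallyEq.2 ?_
  filter_upwards [h2.eventually_lt_const (show _ < -(1 / 2 : ℝ) by linarith),
    φ.open_target.eventually_mem hx] with y h3 h4
  rw [h.T_sym hT h4]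
  exact (pr_lo h3.le).2

theorem lkA (cb : g.F.Cb fun x => pr b (T x)) (hs : (tsupport fun x => pr b (T x)) ⊆ φ.target) :
    Lk g.F.toPre g'.F.toPre φ.symm (fun x => pr b (T x)) fun x => pr b (K'.tm x + δ - τ) where
  iso := iso_symm h.lit.iso
  cb := cb
  cb' := h.cb' _
  s := hs
  s' x hx := h.mem.2 fun e => h.fw e (by
    have := ts_le (g := fun x => pm b * (K'.tm x + δ - τ)) (by have := K'.cont; fun_prop)
      (fun _ => pr_ne) hx
    linarith)
  eq _ hx := h.T_sym hT hx b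

theorem oth {e₁ : En3 κ lam ν} {K₁ : Nk e₁ g} {K₁' : Nk e₁ g'} (c : K₁'.Cor K₁ φ 0)
    (dj : Disjoint K₁'.ψ.target K'.ψ.target) {s : Bool} (hs : K₁.Inf s) :
    K₁'.Inf s ∧ ∀ᶠ x in nd _ s, (pr b (T (K₁.ψ x)) = 1 ∧ φ.symm (K₁.ψ x) = K₁'.ψ (x.1, x.2 + 0)) ∧
      pr (!b) (T (K₁.ψ x)) = 0 := by
  have hs' : K₁'.Inf s := by
    cases s
    · exact Option.map_eq_none_iff.1 (c.1.symm.trans hs)
    · exact Option.map_eq_none_iff.1 (c.2.1.symm.trans hs)
  refine ⟨hs', (ev_ψ K₁' hs').mono fun x hx => ?_⟩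
  obtain ⟨k1, k2⟩ := c.2.2 x hx
  have lo := pr_lo (b := b) (t := K'.tm (K₁'.ψ x) + δ - τ) (by
    linarith [h.lo' fun e => disjoint_left.1 dj (K₁'.ψ.map_source hx) ((tm_tgt K').2 e)])
  rw [add_zero] at k2 ⊢
  rw [k2, hT _ k1, hT _ k1, φ.left_inv k1]
  exact ⟨⟨lo.1, rfl⟩, lo.2⟩

end Hn

/-- the rotation data of a cut -/
theorem exists_r4 {gL : Bg XL.I XL.M κ lam ν ncL} {gR : Bg XR.I XR.M κ lam ν ncR} {K : Nk e g}
    {KL : Nk e gL} {KR : Nk e gR} {φL φR} {δL δR τ : ℝ} (hL : Hn K KL true φL δL τ)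
    (hR : Hn K KR false φR δR τ) (cov : φL.target ∪ φR.target = univ)
    (int : φL.target ∩ φR.target = K.ψ.target) : ∃ T : X.M → ℝ,
      (∀ x ∈ φL.source, ∀ c, pr c (T (φL x)) = pr c (KL.tm x + δL - τ)) ∧
      (∀ x ∈ φR.source, ∀ c, pr c (T (φR x)) = pr c (KR.tm x + δR - τ)) ∧
      R4 (X4 := e.Z) gL.F.toPre gR.F.toPre g.F.toPre e.cyl.F.toPre φL.symm φR.symm (shK KL (-δL))
        (shK KR (-δR)) (fun x => pr true (KL.tm x + δL - τ)) (fun x => pr false (KL.tm x + δL - τ))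
        (fun x => pr true (KR.tm x + δR - τ)) (fun x => pr false (KR.tm x + δR - τ))
        (fun x => pr true (T x)) (fun x => pr false (T x)) (fun x => pr true (x.2 - τ))
        fun x => pr false (x.2 - τ) := by
  classical
  let T : X.M → ℝ := fun x => if x ∈ φR.target then KR.tm (φR.symm x) + δR - τ else -1
  have tR : ∀ x ∈ φR.source, ∀ c, pr c (T (φR x)) = pr c (KR.tm x + δR - τ) := fun x hx c => by
    simp only [T, if_pos (φR.map_source hx), φR.left_inv hx]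
  have tL : ∀ x ∈ φL.source, ∀ c, pr c (T (φL x)) = pr c (KL.tm x + δL - τ) := fun x hx c => by
    by_cases e : φL x ∈ K.ψ.target
    · have e1 := (tm_tgt K).1 e
      have e2 := hL.sym e1 (K.ψ.symm (φL x)).1
      rw [nk_eq K e, hR.T_nk tR e1]
      rw [← nk_eq K e, φL.left_inv hx] at e2
      conv_rhs => rw [e2.2.2, KL.tm_ψ _ (src KL e2.1 _), neg_add_cancel_right]
    · rw [show T (φL x) = -1 from if_neg fun k => e (int.le ⟨φL.map_source hx, k⟩)]
      exact pr_eq (b := true) (by norm_num [pm]) (by linarith [hL.off hx e]) c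
  have cb : ∀ c, g.F.Cb fun x => pr c (T x) := fun c =>
    cb_glue hL.lit.iso hR.lit.iso cov (tL · · c) (tR · · c) (hL.cb' c) (hR.cb' c)
  have cv : ∀ x, x ∈ φL.target ∨ x ∈ φR.target := fun x => (cov ▸ mem_univ x : x ∈ _ ∪ _)
  have sL : (tsupport fun x => pr true (T x)) ⊆ φL.target := fun x hx => by_contra fun e =>
    hR.ev_off tR ((cv x).resolve_left e) (fun k => e (int.ge k).1) hx
  have sR : (tsupport fun x => pr false (T x)) ⊆ φR.target := fun x hx => by_contra fun e =>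
    hL.ev_off tL ((cv x).resolve_right e) (fun k => e (int.ge k).2) hx
  refine ⟨T, tL, tR, hL.lkA tL (cb _) sL, hR.lkA tR (cb _) sR, hL.lkC, hR.lkC,
    fun _ => pr_sq _, fun _ => pr_sq _, fun _ => pr_sq _, fun _ => pr_sq _,
    {z | |z.2 - τ| < 1}, K.ψ, fun z hz => ?_, fun _ => hL.far, fun _ h h' => hR.far h' h,
    fun x h h' => ?_, fun _ => pr_mid⟩
  · have m := hL.mid hz
    obtain ⟨l1, l2, l3⟩ := hL.sym m z.1
    obtain ⟨r1, r2, r3⟩ := hR.sym m z.1
    exact ⟨shK_src _ _ l1, shK_src _ _ r1, l2, r2, l3, r3, hR.T_nk tR m _ _, hR.T_nk tR m _ _⟩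
  · have e : x ∈ K.ψ.target := int.le ⟨sL (subset_tsupport _ h), sR (subset_tsupport _ h')⟩
    have e1 := (tm_tgt K).1 e
    rw [nk_eq K e, hR.T_nk tR e1] at h h'
    exact ⟨((K.ψ.symm x).1, K.tm x), pr_mid (b := true) h h', nk_eq K e⟩

end Crest.Agent.X212.Add68
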