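import Crest.Agent.X212.Add68.NF

/-!
# Row 212, SW-ADD (helper68): the cut-off functions on one side of a cut
-/

set_option autoImplicit false
set_option linter.unusedSectionVars false
noncomputable section
open scoped Manifold ContDiff Topology InnerProductSpace
open MeasureTheory Set Function Filter

namespace Crest.Agent.X212.Add68
open An An.Pre Sob92 Cyf70 Sw Sw.En3 Map77.S Pb50 Cut71
open M (Mf pm)
open Nd18 (Dp Jv not_Dp)
open Real (smoothTransition)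

/-- the profiles -/
def pr (b : Bool) (t : ℝ) : ℝ :=
  if b then Real.cos (Real.pi / 2 * smoothTransition (t + 1 / 2))
  else Real.sin (Real.pi / 2 * smoothTransition (t + 1 / 2))

section pr
variable {b : Bool} {t : ℝ}

theorem pr_sq (t : ℝ) : pr true t * pr true t + pr false t * pr false t = 1 := by
  simp only [pr, if_true, Bool.false_eq_true, if_false, ← sq, Real.cos_sq_add_sin_sq]

theorem pr_lo (h : pm b * t ≤ -(1 / 2)) : pr b t = 1 ∧ pr (!b) t = 0 := by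
  cases b <;> simp only [pm, if_true, Bool.false_eq_true, if_false] at h
  · simp [-one_div, pr, smoothTransition.one_of_one_le (show 1 ≤ t + 1 / 2 by linarith)]
  · simp [-one_div, pr, smoothTransition.zero_of_nonpos (show t + 1 / 2 ≤ 0 by linarith)]

theorem pr_eq {t' : ℝ} (h : pm b * t ≤ -(1 / 2)) (h' : pm b * t' ≤ -(1 / 2)) (c : Bool) :
    pr c t = pr c t' := by
  by_cases e : c = b
  · rw [e, (pr_lo h).1, (pr_lo h').1]
  · rw [Bool.eq_not_of_ne e, (pr_lo h).2, (pr_lo h').2]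

theorem pr_ne (h : pr b t ≠ 0) : pm b * t < 1 / 2 := lt_of_not_ge fun k => h (by
  have := (pr_lo (b := !b) (t := t) (by rw [pm_not]; linarith)).2
  rwa [Bool.not_not] at this)

theorem pr_ne' (h : pr (!b) t ≠ 0) : -(1 / 2) < pm b * t := by
  have := pr_ne h
  rw [pm_not] at this
  linarith

theorem pr_mid (h : pr b t ≠ 0) (h' : pr (!b) t ≠ 0) : |t| < 1 := by
  rw [← abs_pm b, abs_lt]
  exact ⟨by linarith [pr_ne' h'], by linarith [pr_ne h]⟩

end pr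

theorem ts_le {M : Type} [TopologicalSpace M] {f g : M → ℝ} (hg : Continuous g) {c : ℝ}
    (h : ∀ x, f x ≠ 0 → g x < c) {x : M} (hx : x ∈ tsupport f) : g x ≤ c :=
  closure_minimal (fun x hx => (h x hx).le) (isClosed_le hg continuous_const) hx

variable {κ lam ν : Type} [Fintype κ] [Fintype lam] [Fintype ν] [DecidableEq ν]
  {X X' : Mf 4} {nc nc' : ℕ}

theorem cb_pr (e : En3 κ lam ν) (b : Bool) (c : ℝ) : e.D.Z.Cb fun x => pr b (x.2 + c) := by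
  have h := cb_st (F := e.D.F.toPre) (s := true) (-(c + 1 / 2))
  have h1 : ContDiff ℝ ∞ fun r => if b then Real.cos (Real.pi / 2 * r)
      else Real.sin (Real.pi / 2 * r) := by
    cases b <;> simp only [if_true, Bool.false_eq_true, if_false] <;> fun_prop
  have h2 := Cb_nem h1 h
  simp only [pm, if_true, one_mul, sub_neg_eq_add, ← add_assoc] at h2
  exact h2

theorem cb_tm {e : En3 κ lam ν} {b : Bg X.I X.M κ lam ν nc} (K : Nk e b) {h : ℝ → ℝ}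
    (hc : e.D.Z.Cb fun x => h x.2) {c : ℝ} (hz : ∀ t ∉ Dp K.p K.q (1 / 2), h t = c) :
    b.F.Cb fun x => h (K.tm x) := by
  obtain ⟨C, hC⟩ := Cb_sub hc (Cb_const c)
  have h1 := K.CBs_push one_half_pos hC fun z k => sub_eq_zero.2 (hz _ k)
  have h2 := K.push_time (h := fun t => h t - c) one_half_pos fun t k => sub_eq_zero.2 (hz _ k)
  have h3 := Cb_add ⟨_, (congrArg (b.F.CBs · _) h2).mp h1⟩ (Cb_const (F := b.F.toPre) c)
  exact (congrArg b.F.Cb (funext fun x => sub_add_cancel _ _)).mp h3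

theorem cb_glue {X1 X2 : Mf 4} {ι : Type} [Fintype ι] {F : An.Fr X.I X.M ι} {F1 : An.Fr X1.I X1.M ι}
    {F2 : An.Fr X2.I X2.M ι} {φ1 φ2} (h1 : Iso F1.toPre F.toPre φ1) (h2 : Iso F2.toPre F.toPre φ2)
    (cov : φ1.target ∪ φ2.target = univ) {f : X.M → ℝ} {f1 f2}
    (e1 : ∀ x ∈ φ1.source, f (φ1 x) = f1 x) (e2 : ∀ x ∈ φ2.source, f (φ2 x) = f2 x)
    (c1 : F1.Cb f1) (c2 : F2.Cb f2) : F.Cb f := by
  have key : ∀ {X1 : Mf 4} {F1 : An.Fr X1.I X1.M ι} {φ1}, Iso F1.toPre F.toPre φ1 → ∀ {f1},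
      (∀ x ∈ φ1.source, f (φ1 x) = f1 x) → F1.Cb f1 → ∃ C : ℕ → ℝ, ∀ x ∈ φ1.target,
        ContMDiffAt X.I 𝓘(ℝ, ℝ) ∞ f x ∧ ∀ w, ‖F.Dw w f x‖ ≤ C w.length := by
    intro X1 F1 φ1 h1 f1 e1 ⟨C, hC⟩
    refine ⟨C, fun x hx => ?_⟩
    have r := Pj41.fRel_of_iso (iso_symm h1)
    have ev : ∀ᶠ y in 𝓝 x, f y = f1 (φ1.symm y) := (φ1.open_target.eventually_mem hx).mono
      fun y hy => by rw [← e1 _ (φ1.map_target hy), φ1.right_inv hy]
    exact ⟨(r.sm hx (hC.1 _)).congr_of_eventuallyEq ev, fun w =>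
      (r.Dw hx w ev).symm ▸ hC.2 _ w le_rfl _⟩
  obtain ⟨C1, k1⟩ := key h1 e1 c1
  obtain ⟨C2, k2⟩ := key h2 e2 c2
  have cv : ∀ x, x ∈ φ1.target ∨ x ∈ φ2.target := fun x => (cov ▸ mem_univ x : x ∈ _ ∪ _)
  exact Cb_of_bdd (fun x => (cv x).elim (fun h => (k1 x h).1) fun h => (k2 x h).1) fun w =>
    ⟨max (C1 w.length) (C2 w.length), fun x => (cv x).elim
      (fun h => ((k1 x h).2 w).trans (le_max_left _ _)) fun h =>
        ((k2 x h).2 w).trans (le_max_right _ _)⟩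

section sh
variable {e : En3 κ lam ν} {b : Bg X.I X.M κ lam ν nc} (K : Nk e b) (δ : ℝ)

/-- the neck with shifted time -/
def shK : OpenPartialHomeomorph e.Z.M X.M := (sH e δ).toOpenPartialHomeomorph.trans K.ψ

theorem shK_lit : Bg.Lit (XL := e.Z) e.cyl b (shK K δ) := lit_trans (sH_lit δ) (nk_lit K) rfl rfl

theorem shK_src {x : e.Y.M × ℝ} (h : x.2 + δ ∈ K.J) : x ∈ (shK K δ).source :=
  ⟨trivial, K.mem_src.2 h⟩

theorem shK_tgt {x : X.M} (h : x ∈ K.ψ.target) : x ∈ (shK K δ).target := ⟨h, trivial⟩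

theorem shK_apply (x : e.Y.M × ℝ) : shK K δ x = K.ψ (x.1, x.2 + δ) := rfl

theorem nk_eq {x : X.M} (h : x ∈ K.ψ.target) : x = K.ψ ((K.ψ.symm x).1, K.tm x) := by
  rw [← K.snd_symm h, K.ψ.right_inv h]

end sh

variable {d : Dt κ lam ν} [Fintype d.𝓔] {Sl : Type} [Fintype Sl]

/-- one side of a cut at the time `τ` -/
structure Hv (P : PcS d Sl X nc) (P' : PcS d Sl X' nc') (ε : d.𝓔) (a a' : Sl) (b : Bool)
    (φ : OpenPartialHomeomorph X'.M X.M) (δ : ℝ) (O : d.𝓔 × Sl → Prop) (π : d.𝓔 × Sl → Sl)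
    (K : Nk (d.e ε) P.bg) (K' : Nk (d.e ε) P'.bg) (τ : ℝ) : Prop where
  ok : P.OK
  ok' : P'.OK
  H : ∃ r cc J, Half P P' ε a a' b φ δ r O π cc J
  hK : P.nk (ε, a) = some K
  hK' : P'.nk (ε, a') = some K'
  w1 : ∀ a ∈ K.p, a + 1 ≤ τ
  w2 : ∀ a ∈ K.q, τ + 1 ≤ a

namespace Hv
variable {P : PcS d Sl X nc} {P' : PcS d Sl X' nc'} {ε : d.𝓔} {a a' : Sl} {b : Bool}
  {φ : OpenPartialHomeomorph X'.M X.M} {δ : ℝ} {O : d.𝓔 × Sl → Prop} {π : d.𝓔 × Sl → Sl}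
  {K : Nk (d.e ε) P.bg} {K' : Nk (d.e ε) P'.bg} {τ t : ℝ} {x : X'.M} {T : X.M → ℝ}
  (h : Hv P P' ε a a' b φ δ O π K K' τ)
include h

theorem lit : P'.bg.Lit P.bg φ := h.H.choose_spec.choose_spec.choose_spec.lit

theorem nk : K'.Inf b ∧ (if b then K.p = K'.p.map (· + δ) else K.q = K'.q.map (· + δ)) ∧
    ∀ x, x ∈ φ.source ↔ (K'.tm x ∈ K'.J → K'.tm x + δ ∈ K.J) :=
  let ⟨_, _, _, H⟩ := h.H
  let k := half_nk H h.hK h.hK'
  ⟨k.1, k.2.1, k.2.2.1⟩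

theorem inf' (k : K.Inf (!b)) : K'.Inf (!b) := by
  have h2 := h.nk.2.1
  cases b
  · exact Option.map_eq_none_iff.1 ((show K.q = _ from h2).symm.trans k)
  · exact Option.map_eq_none_iff.1 ((show K.p = _ from h2).symm.trans k)

theorem mid (k : |t - τ| < 1) : t ∈ K.J :=
  ⟨fun a ha => by linarith [h.w1 a ha, (abs_lt.1 k).1],
    fun a ha => by linarith [h.w2 a ha, (abs_lt.1 k).2]⟩

theorem lo {D : ℝ} (k : (∃ a, K'.p = some a ∧ t ≤ a + D) ∨ ∃ a, K'.q = some a ∧ a - D ≤ t) :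
    pm b * (t + δ - τ) ≤ D - 1 := by
  obtain ⟨h1, h2, -⟩ := h.nk
  cases b <;> simp only [pm, Nk.Inf, if_true, Bool.false_eq_true, if_false] at h1 h2 ⊢ <;>
    rcases k with ⟨a, e, k⟩ | ⟨a, e, k⟩
  · simp [e] at h1
  · linarith [h.w2 (a + δ) (by simp [h2, e])]
  · linarith [h.w1 (a + δ) (by simp [h2, e])]
  · simp [e] at h1

theorem lo' (k : t ∉ K'.J) : pm b * (t + δ - τ) ≤ -1 := by
  have := h.lo (D := 0) (t := t) (by
    by_contra e
    push Not at e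
    exact k ⟨fun a ha => by simpa using e.1 a ha, fun a ha => by simpa using e.2 a ha⟩)
  linarith

theorem fw (k : t ∈ K'.J) (k' : pm b * (t + δ - τ) < 1) : t + δ ∈ K.J := by
  obtain ⟨-, h2, -⟩ := h.nk
  cases b <;> simp only [pm, if_true, Bool.false_eq_true, if_false] at h2 k'
  · refine ⟨fun a ha => by linarith [h.w1 a ha], fun a ha => ?_⟩
    obtain ⟨a', h3, rfl⟩ := Option.mem_map.1 (h2 ▸ ha)
    linarith [k.2 a' h3]
  · refine ⟨fun a ha => ?_, fun a ha => by linarith [h.w2 a ha]⟩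
    obtain ⟨a', h3, rfl⟩ := Option.mem_map.1 (h2 ▸ ha)
    linarith [k.1 a' h3]

theorem cb' (c : Bool) : P'.bg.F.Cb fun x => pr c (K'.tm x + δ - τ) :=
  cb_tm K' (h := fun t => pr c (t + δ - τ)) (by simpa only [add_sub_assoc] using cb_pr _ c (δ - τ))
    (c := pr c (-pm b)) fun t ht => pr_eq (b := b) (by
      linarith [h.lo (D := 1 / 2) (t := t) ((not_Dp ht).imp (fun ⟨a, e, k⟩ => ⟨a, e, k.le⟩)
        fun ⟨a, e, k⟩ => ⟨a, e, k.le⟩)]) (by rw [mul_neg, pm_sq]; norm_num) c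

theorem sym (ht : t ∈ K.J) (y : (d.e ε).Y.M) : t + -δ ∈ K'.J ∧ K.ψ (y, t) ∈ φ.target ∧
    φ.symm (K.ψ (y, t)) = K'.ψ (y, t + -δ) := by
  obtain ⟨_, _, _, H⟩ := h.H
  obtain ⟨h1, h2, h3⟩ := half_inv H h.hK h.hK' (t := t + -δ) (by simpa using ht) y
  rw [neg_add_cancel_right] at h3
  exact ⟨h1, h3 ▸ φ.map_source h2, by rw [← h3, φ.left_inv h2]⟩

theorem off (hx : x ∈ φ.source) (k : φ x ∉ K.ψ.target) : pm b * (K'.tm x + δ - τ) ≤ -1 :=
  h.lo' fun e => k (by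
    have e1 := (h.nk.2.2 x).1 hx e
    have e2 := h.sym e1 (K'.ψ.symm x).1
    rw [add_neg_cancel_right, ← nk_eq K' ((tm_tgt K').2 e)] at e2
    have e3 := φ.right_inv e2.2.1
    rw [e2.2.2] at e3
    exact e3 ▸ K.ψ.map_source (src K e1 _))

theorem far {y : X'.M} (k : pr b (K'.tm y + δ - τ) ≠ 0) (k' : pr (!b) (K'.tm y + δ - τ) ≠ 0) :
    ∃ z ∈ {z : (d.e ε).Y.M × ℝ | |z.2 - τ| < 1}, y = shK K' (-δ) z :=
  ⟨((K'.ψ.symm y).1, K'.tm y + δ), pr_mid k k', by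
    rw [shK_apply, add_neg_cancel_right]
    exact nk_eq K' ((tm_tgt K').2 (by_contra fun e => by linarith [h.lo' e, pr_ne' k']))⟩

theorem lkC : Lk (X := (d.e ε).Z) (d.e ε).D.Z.toPre P'.bg.F.toPre (shK K' (-δ))
    (fun x => pr (!b) (x.2 - τ)) fun x => pr (!b) (K'.tm x + δ - τ) where
  iso := (shK_lit K' _).iso
  cb := cb_pr _ _ _
  cb' := h.cb' _
  s x hx := shK_src K' _ (by_contra fun e => by
    have := ts_le (g := fun x : (d.e ε).Y.M × ℝ => pm (!b) * (x.2 - τ)) (by fun_prop)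
      (fun _ => pr_ne) hx
    have e := h.lo' e
    rw [neg_add_cancel_right] at e
    rw [pm_not] at this
    linarith)
  s' x hx := shK_tgt K' _ ((tm_tgt K').2 (by_contra fun e => by
    have := ts_le (g := fun x => pm (!b) * (K'.tm x + δ - τ)) (by have := K'.cont; fun_prop)
      (fun _ => pr_ne) hx
    rw [pm_not] at this
    linarith [h.lo' e]))
  eq x hx := by rw [shK_apply, K'.tm_ψ (x.1, x.2 + -δ) hx.2, neg_add_cancel_right]

variable (hT : ∀ x ∈ φ.source, ∀ c, pr c (T (φ x)) = pr c (K'.tm x + δ - τ))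
include hT

theorem T_sym {x : X.M} (hx : x ∈ φ.target) (c : Bool) :
    pr c (T x) = pr c (K'.tm (φ.symm x) + δ - τ) := by
  rw [← hT _ (φ.map_target hx), φ.right_inv hx]

theorem T_nk (ht : t ∈ K.J) (y : (d.e ε).Y.M) (c : Bool) : pr c (T (K.ψ (y, t))) = pr c (t - τ) := by
  obtain ⟨h1, h2, h3⟩ := h.sym ht y
  rw [h.T_sym hT h2, h3, K'.tm_ψ _ (src K' h1 y), neg_add_cancel_right]

theorem ev_off {x : X.M} (hx : x ∈ φ.target) (k : x ∉ K.ψ.target) :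
    x ∉ tsupport fun y => pr (!b) (T y) := by
  have h1 := h.off (φ.map_target hx) (by rwa [φ.right_inv hx])
  have h2 : ContinuousAt (fun y => pm b * (K'.tm (φ.symm y) + δ - τ)) x :=
    continuousAt_const.mul (((K'.cont.continuousAt.comp (φ.continuousAt_symm hx)).add
      continuousAt_const).sub continuousAt_const)
  refine notMem_tsupport_iff_eventuallyEq.2 ?_
  filter_upwards [h2.eventually_lt_const (show _ < -(1 / 2 : ℝ) by linarith),
    φ.open_target.eventually_mem hx] with y h3 h4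
  rw [h.T_sym hT h4]
  exact (pr_lo h3.le).2

theorem lkA (cb : P.bg.F.Cb fun x => pr b (T x)) (hs : (tsupport fun x => pr b (T x)) ⊆ φ.target) :
    Lk P.bg.F.toPre P'.bg.F.toPre φ.symm (fun x => pr b (T x)) fun x => pr b (K'.tm x + δ - τ) where
  iso := iso_symm h.lit.iso
  cb := cb
  cb' := h.cb' _
  s := hs
  s' x hx := (h.nk.2.2 x).2 fun e => h.fw e (by
    have := ts_le (g := fun x => pm b * (K'.tm x + δ - τ)) (by have := K'.cont; fun_prop)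
      (fun _ => pr_ne) hx
    linarith)
  eq _ hx := h.T_sym hT hx b

theorem oth {j : d.𝓔 × Sl} (hj : O j) {K₁ : Nk (d.e j.1) P.bg} (h1 : K₁ ∈ P.nk j) {s : Bool}
    (hs : K₁.Inf s) : ∃ K₁' ∈ P'.nk (j.1, π j), K₁'.Inf s ∧ ∀ᶠ x in nd _ s,
      (pr b (T (K₁.ψ x)) = 1 ∧ φ.symm (K₁.ψ x) = K₁'.ψ (x.1, x.2 + 0)) ∧
        pr (!b) (T (K₁.ψ x)) = 0 := by
  obtain ⟨_, _, _, H⟩ := h.H
  obtain ⟨-, ne, ⟨k, -⟩ | ⟨K₂, h2, K₁', h3, e1, e2, k1, k2⟩⟩ := H.oth j hj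
  · obtain ⟨a, e1, e2⟩ := k K₁ h1
    cases s <;> simp [Nk.Inf, e1, e2] at hs
  obtain rfl := Option.mem_unique h1 h2
  have hs' : K₁'.Inf s := by rwa [Nk.Inf, ← e1, ← e2]
  refine ⟨K₁', h3, hs', (ev_ψ K₁' hs').mono fun x hx => ?_⟩
  have m := K₁'.ψ.map_source hx
  have lo := pr_lo (b := b) (t := K'.tm (K₁'.ψ x) + δ - τ) (by
    linarith [h.lo' fun e => disjoint_left.1 (h.ok'.dj ne K₁' h3 K' h.hK') m ((tm_tgt K').2 e)])
  rw [k2 x hx, hT _ (k1 m), hT _ (k1 m), φ.left_inv (k1 m), add_zero]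
  exact ⟨⟨lo.1, rfl⟩, lo.2⟩

end Hv

end Crest.Agent.X212.Add68
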