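import Crest.Agent.X212.Add68.Hn
import Crest.Agent.X212.Ix82.Defs

/-!
# Row 212, lane IND-S (helper68): IX-ADD, additivity of the intrinsic index
-/

set_option autoImplicit false
set_option linter.unusedSectionVars false
noncomputable section
open scoped Manifold ContDiff Topology InnerProductSpace
open MeasureTheory Set Function Filter

namespace Crest.Agent.X212.Add68
open An An.Pre Sob92 Cyf70 Sw Sw.En3 Map77.S Pb50 Cut71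
open M (Mf pm)

variable {κ lam ν : Type} [Fintype κ] [Fintype lam] [Fintype ν] [DecidableEq ν]
  {X X' X₁ X₂ : Mf 4} {nc nc' nc₁ nc₂ : ℕ} {e : En3 κ lam ν}

theorem app_lit (O : IxOp κ lam ν) {b : Bg X.I X.M κ lam ν nc} {b' : Bg X'.I X'.M κ lam ν nc'} {φ}
    (hb : b.OK) (hb' : b'.OK) (h : b.Lit b' φ) {x : X.M} (hx : x ∈ φ.source) {w : X.M → Cf κ ν}
    {u : X'.M → Cf κ ν} (k : ∀ᶠ y in 𝓝 x, w y = u (φ y)) :
    b.A0.app b.F w x = b'.A0.app b'.F u (φ x) :=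
  app_loc h.iso (fun a x hx => ((O.lit _ _ _ _ _ _ φ hb hb' h x hx).2.2.1 a).symm)
    (fun x hx => (O.lit _ _ _ _ _ _ φ hb hb' h x hx).2.2.2.symm) hx k

theorem bl_A0 (O : IxOp κ lam ν) {b : Bg X.I X.M κ lam ν nc} {b' : Bg X'.I X'.M κ lam ν nc'} {φ}
    (hb : b.OK) (hb' : b'.OK) (h : b.Lit b' φ) {f : X.M → ℝ}
    {D : b.F.H (7 + 1) b.A0.p →L[ℝ] b.F.H 7 b.A0.q} {D' : b'.F.H (7 + 1) b'.A0.p →L[ℝ] b'.F.H 7 b'.A0.q}
    (far : ∃ C, IsCompact C ∧ ∀ x ∉ C, Mt Subtype.val (fun u => b.F.val 7 _ (D (b.F.toH _ _ u)))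
      Subtype.val (fun u => b'.F.val 7 _ (D' (b'.F.toH _ _ u))) φ f x) : Bl φ f D D' :=
  have k := O.lit _ _ _ _ _ _ φ hb hb' h
  ⟨fun x hx => (k x hx).1.symm, fun x hx => (k x hx).2.1.symm, fun a x hx => ((k x hx).2.2.1 a).symm,
    far.imp fun _ h => ⟨h.1, fun u w e x hx => h.2 x hx u w e⟩⟩

variable (e) in
/-- the operator on the cylinder with the term `a` -/
def cz (a : e.T) (u : e.Y.M × ℝ → Cf κ ν) (x : e.Y.M × ℝ) : Ef κ ν :=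
  e.cyl.A0.app e.cyl.F u x + e.cyl.A0.σ none x (e.ap a (fun y => u (y, x.2)) x.1)

theorem cz_sh (O : IxOp κ lam ν) (he : e.OK) (a : e.T) {u u' : e.Y.M × ℝ → Cf κ ν} {x : e.Y.M × ℝ}
    {δ : ℝ} (h : ∀ᶠ r in 𝓝 x.2, ∀ y, u (y, r) = u' (y, r + δ)) :
    cz e a u x = cz e a u' (x.1, x.2 + δ) := by
  rw [cz, cz, app_lit (X := e.Z) (X' := e.Z) O he.cyl he.cyl (sH_lit δ) trivial (u := u') (slab h),
    funext h.self_of_nhds,
    ← (O.lit e.Z e.Z _ _ _ _ _ he.cyl he.cyl (sH_lit δ) x trivial).2.2.1 none]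
  rfl

theorem cz_zero (a : e.T) {u : e.Y.M × ℝ → Cf κ ν} {x : e.Y.M × ℝ}
    (h : ∀ᶠ r in 𝓝 x.2, ∀ y, u (y, r) = 0) : cz e a u x = 0 := by
  rw [cz, app_zero (X := e.Z) (slab h), funext h.self_of_nhds]
  simp [ap]

section ends
variable {S S' M M' : Type} (j : S → M → Cf κ ν) (A : S → M → Ef κ ν)
  {j' : S' → M' → Cf κ ν} {A' : S' → M' → Ef κ ν}

/-- far out on the end `ψ` the operator `A` is the operator with the term `a` -/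
def EG (ψ : e.Y.M × ℝ → M) (s : Bool) (a : e.T) : Prop :=
  ∀ᶠ x in nd e.Y.M s, ∀ u, A u (ψ x) = cz e a (fun z => j u (ψ z)) x

variable {j A} {ψ : e.Y.M × ℝ → M} {ψ' : e.Y.M × ℝ → M'} {s : Bool} {a : e.T}
  {φ : M → M'} {f : M → ℝ}

theorem EG.zero (h : EG j A ψ s a) (hf : ∀ᶠ x in nd e.Y.M s, f (ψ x) = 0) :
    ∀ᶠ x in nd e.Y.M s, Mt j A j' A' φ f (ψ x) := by
  filter_upwards [h, nd_slab hf] with x h1 h2 u w k
  rw [h2.self_of_nhds x.1, zero_smul, h1]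
  exact cz_zero a (h2.mono fun r hr y => by rw [k, hr, zero_smul])

theorem EG.one (O : IxOp κ lam ν) (he : e.OK) (h : EG j A ψ s a) (h' : EG j' A' ψ' s a) {δ : ℝ}
    (hf : ∀ᶠ x in nd e.Y.M s, f (ψ x) = 1 ∧ φ (ψ x) = ψ' (x.1, x.2 + δ)) :
    ∀ᶠ x in nd e.Y.M s, Mt j A j' A' φ f (ψ x) := by
  filter_upwards [h, nd_sh δ h', nd_slab hf] with x h1 h3 h2 u w k
  rw [(h2.self_of_nhds x.1).1, (h2.self_of_nhds x.1).2, one_smul, h1, h3]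
  exact cz_sh O he a (h2.mono fun r hr y => by rw [k, (hr y).1, (hr y).2, one_smul])

end ends

section pz
variable {N : Type} [Fintype N] {e : N → En3 κ lam ν} {P : Pz X nc e} (hP : P.OK)
include hP

theorem ev_bw {i : N} {s : Bool} {K : Nk (e i) P.bg} (hK : K ∈ P.nk i) (hs : K.Inf s) :
    ∀ᶠ x in nd (e i).Y.M s, ∀ f : ∀ j, Bool → Nk (e j) P.bg → Ef κ ν,
      ∑ j, ∑ b, ((P.nk j).elim 0 fun K' => K'.bw b (K.ψ x) • f j b K') = f i s K := by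
  filter_upwards [ev_ψ K hs, nd_basis.mem_of_mem (i := |K.p.getD 0| + |K.q.getD 0| + 2) trivial]
    with x hx h f
  have h : |K.p.getD 0| + |K.q.getD 0| + 2 < pm s * x.2 := h
  have a1 := abs_nonneg (K.p.getD 0)
  have a2 := abs_nonneg (K.q.getD 0)
  rw [Finset.sum_comm, Finset.sum_congr rfl fun b _ => sum_nk hP hK (K.ψ.map_source hx) _
    fun j K' hz => by rw [show K'.bw b (K.ψ x) = 0 from by_contra fun k => hz (bw_dp K' k).2.2,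
      zero_smul], Finset.sum_eq_single s (fun b _ hb => ?_) fun k => (k (Finset.mem_univ s)).elim,
    Nk.bw, if_pos hs, K.tm_ψ x hx, Real.smoothTransition.one_of_one_le (by linarith), one_smul]
  rw [show K.bw b (K.ψ x) = 0 from by_contra fun k => ?_, zero_smul]
  have := (bw_dp K k).2.1
  rw [K.tm_ψ x hx] at this
  cases s <;> cases b <;> simp only [pm, ne_eq, not_true, if_true, Bool.false_eq_true, if_false]
    at hb h this <;> linarith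

variable (P) in
/-- values on smooth sections -/
abbrev vP (a : TCs e) (u : Sec X.I P.bg.A0.p) : X.M → Ef κ ν :=
  P.bg.F.val 7 _ (P.stH a (P.bg.F.toH _ _ u))

theorem eg_nk (O : IxOp κ lam ν) (R : IxRep κ lam ν) {a : TCs e} (ha : P.TOK a) {i : N} {s : Bool}
    {K : Nk (e i) P.bg} (hK : K ∈ P.nk i) (hs : K.Inf s) :
    EG Subtype.val (vP P a) K.ψ s (a i s) := by
  filter_upwards [ev_ψ K hs, ev_bw hP hK hs] with x hx h u
  rw [vP, RepT_toH (R.x X nc N e P hP a ha).1,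
    val_toH (Sup.of_tame hP.bg.tame.choose_spec) (by omega)]
  refine congrArg₂ (· + ·) (app_lit (X := (e i).Z) O (hP.en i).cyl hP.bg (nk_lit K) hx
    (.of_forall fun _ => rfl)).symm ((h fun j b K' => P.bg.A0.σ none (K.ψ x) ((e j).ap (a j b)
      (fun y => u.1 (K'.ψ (y, K'.tm (K.ψ x)))) (K'.ψ.symm (K.ψ x)).1)).trans ?_)
  rw [K.tm_ψ x hx, K.ψ.left_inv hx,
    (O.lit (e i).Z X _ _ _ _ _ (hP.en i).cyl hP.bg (nk_lit K) x hx).2.2.1 none]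

end pz

/-- the cylinder as a piece -/
def zP (e : En3 κ lam ν) : Pz e.Z 0 fun _ : Unit => e := ⟨e.cyl, fun _ => some e.nk⟩

theorem zP_ok (he : e.OK) : (zP e).OK := by
  refine ⟨he.cyl, he.cyl.G.vol, inferInstanceAs (ConnectedSpace (_ × ℝ)), fun _ => he,
    Subsingleton.pairwise, fun T => ?_⟩
  have key : ∀ x ∈ (zP e).core T, ∀ s, pm s * x.2 ≤ T := fun x hx s => not_lt.1 fun k =>
    hx () s e.nk rfl (by cases s <;> exact rfl) ⟨x, ⟨trivial, ⟨nofun, nofun⟩, k⟩, rfl⟩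
  refine (isCompact_univ.prod (isCompact_Icc (a := -T) (b := T))).of_isClosed_subset ?_
    fun x hx => ⟨trivial, by simpa [pm, neg_le] using key x hx false, by simpa [pm] using key x hx true⟩
  refine (show {x : e.Y.M × ℝ | ∀ s, pm s * x.2 ≤ T} = (zP e).core T from
    Set.ext fun x => ⟨fun h _ s K hK _ k => ?_, key x⟩) ▸ ?_
  · obtain rfl := Option.some.inj hK
    obtain ⟨y, hy, rfl⟩ := k
    exact (h s).not_gt hy.2.2
  · rw [ofPred_forall]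
    exact isClosed_iInter fun i => isClosed_le (continuous_const.mul continuous_snd) continuous_const

theorem exists_z (O : IxOp κ lam ν) (S : IxSym κ lam ν) (R : IxRep κ lam ν) (C : IxCyl κ lam ν)
    (he : e.OK) {a : e.T} (ha : e.TInv a) :
    ∃ D : e.cyl.F.H (7 + 1) e.cyl.A0.p →L[ℝ] e.cyl.F.H 7 e.cyl.A0.q,
      Sy (X := e.Z) e.cyl.F e.cyl.A0 7 D ∧ Fred93.Fr D 0 ∧ ∀ s, EG Subtype.val
        (fun u => e.cyl.F.val 7 _ (D (e.cyl.F.toH _ _ u))) id s a := by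
  have inf : ∀ s, e.nk.Inf s := fun s => by cases s <;> exact rfl
  have h := C _ _ _ _ _ (zP_ok he) (fun _ _ => a) (fun _ _ _ => ha) () ⟨_, rfl, inf _⟩ ⟨_, rfl, inf _⟩
  have m := (R.y e he a ha.toTOK).2
  have z : e.sf a a + e.sf a a = e.sf a a :=
    ((S.cyo e he).isSF exists_stp.choose_spec.choose_spec).add _ m _ m _ m ha.bij ha.bij ha.bij
  rw [show e.sf a a = 0 by omega] at h
  exact ⟨(zP e).stH fun _ _ => a, (R.x _ _ _ _ _ (zP_ok he) _ fun _ _ _ => ha.toTOK).2, h,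
    fun s => eg_nk (zP_ok he) O R (fun _ _ _ => ha.toTOK) (i := ()) (K := e.nk) rfl (inf s)⟩

universe u
variable {𝓔 : Type u} {en : 𝓔 → En3 κ lam ν}

section cast
variable {ε ε' : 𝓔} {g : Bg X.I X.M κ lam ν nc} {g' : Bg X'.I X'.M κ lam ν nc'}

/-- change of the name of the type -/
def cs (h : ε = ε') (K : Nk (en ε) g) : Nk (en ε') g := h ▸ K

theorem cs_tgt (h : ε = ε') (K : Nk (en ε) g) : (cs h K).ψ.target = K.ψ.target := by subst h; rfl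

theorem cs_inf (h : ε = ε') (K : Nk (en ε) g) {s : Bool} : (cs h K).Inf s ↔ K.Inf s := by
  subst h; rfl

theorem EG.cs {S : Type} {j : S → X.M → Cf κ ν} {A} (h : ε = ε') {K : Nk (en ε) g} {s : Bool}
    {a : (en ε).T} {a' : (en ε').T} (k : EG j A K.ψ s a) (ha : HEq a' a) :
    EG j A (cs h K).ψ s a' := by subst h; cases ha; exact k

theorem cor_cs (h : ε' = ε) {K : Nk (en ε) g'} {K' : Nk (en ε') g} {φ δ}
    (c : K.Cor (cs h K') φ δ) : (cs h.symm K).Cor K' φ δ := by subst h; exact c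

theorem ex_T (h : ε = ε') {a : (en ε').T} (ha : (en ε').TInv a) :
    ∃ a' : (en ε).T, (en ε).TInv a' ∧ HEq a' a := by subst h; exact ⟨a, ha, .rfl⟩

end cast

variable {N N₁ N₂ : Type} [Fintype N] [Fintype N₁] [Fintype N₂] {ty : N → 𝓔} {ty₁ : N₁ → 𝓔}
  {P : Pz X nc fun i => en (ty i)} {P₁ : Pz X₁ nc₁ fun i => en (ty₁ i)} {i : N} {j : N₁} {b : Bool}
  {l : OpenPartialHomeomorph X₁.M X.M} {δ τ : ℝ} {r : N₁ → N → Prop} {c : Fin nc₁ → Fin nc}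
  {K : Nk (en (ty i)) P.bg} {K₁ : Nk (en (ty₁ j)) P₁.bg} {T : X.M → ℝ}

theorem hlf_hn (H : Hlf P i P₁ j b l δ r c) (hK : K ∈ P.nk i) (w1 : ∀ a ∈ K.p, a + 1 ≤ τ)
    (w2 : ∀ a ∈ K.q, τ + 1 ≤ a) :
    ∃ h : ty i = ty₁ j, ∃ K₁ ∈ P₁.nk j, Hn K (cs h.symm K₁) b l δ τ := by
  obtain ⟨h, K₀, h0, K₁, h1, k1, k2, k3, k4⟩ := H.nk
  obtain rfl := Option.mem_unique hK h0
  refine ⟨h, K₁, h1, ?_⟩
  have key : ∀ {ε ε' : 𝓔} (h : ε = ε') (K : Nk (en ε) P.bg) (K₁ : Nk (en ε') P₁.bg), K₁.Inf b →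
      (if b then K.p = K₁.p.map (· + δ) else K.q = K₁.q.map (· + δ)) →
      l.source = {x | x ∉ K₁.ψ '' (univ ×ˢ {t ∈ K₁.J | t + δ ∉ K.J})} →
      (∀ y t, t ∈ K₁.J → t + δ ∈ K.J → l (K₁.ψ (y, t)) = (cs h K).ψ (y, t + δ)) →
      (∀ a ∈ K.p, a + 1 ≤ τ) → (∀ a ∈ K.q, τ + 1 ≤ a) → Hn K (cs h.symm K₁) b l δ τ := by
    rintro _ _ rfl K K₁ k1 k2 k3 k4 w1 w2
    exact ⟨H.lit, k1, k2, k3, k4, w1, w2⟩
  exact key h K K₁ k1 k2 k3 k4 w1 w2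

theorem not_off {i' : N} {K₂ : Nk (en (ty i')) P.bg} (h : K₂ ∈ P.nk i') {s : Bool} (hs : K₂.Inf s) :
    ¬P.Off i' := fun k => by
  obtain ⟨a, e1, e2⟩ := k K₂ h
  cases s <;> simp [Nk.Inf, e1, e2] at hs

variable (H : Hlf P i P₁ j b l δ r c) (ok₁ : P₁.OK) (h₁ : K₁ ∈ P₁.nk j) {h : ty i = ty₁ j}
  (hn : Hn K (cs h.symm K₁) b l δ τ)
  (hT : ∀ x ∈ l.source, ∀ c, pr c (T (l x)) = pr c ((cs h.symm K₁).tm x + δ - τ))
include H ok₁ h₁ hn hT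

theorem hlf_oth {j' : N₁} {i' : N} (o : r j' i') {K₂ : Nk (en (ty i')) P.bg} (h2 : K₂ ∈ P.nk i')
    {s : Bool} (hs : K₂.Inf s) : ∃ h' : ty i' = ty₁ j', ∃ K₂' ∈ P₁.nk j', K₂'.Inf s ∧
      ∀ᶠ x in nd _ s, (pr b (T (K₂.ψ x)) = 1 ∧ l.symm (K₂.ψ x) = (cs h'.symm K₂').ψ (x.1, x.2 + 0)) ∧
        pr (!b) (T (K₂.ψ x)) = 0 := by
  obtain ⟨ne, -, k | ⟨h', K₂', h3, K₃, h4, k⟩⟩ := H.nc j' i' o
  · exact (not_off h2 hs k.2).elim
  obtain rfl := Option.mem_unique h2 h4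
  have := hn.oth hT (cor_cs h' k) (by rw [cs_tgt, cs_tgt]; exact ok₁.dj ne _ h3 _ h₁) hs
  exact ⟨h', K₂', h3, (cs_inf _ _).1 this.1, this.2⟩

theorem hlf_blA (O : IxOp κ lam ν) (R : IxRep κ lam ν) (ok : P.OK) (hK : K ∈ P.nk i) {a a₁}
    (ha : P.TOK a) (ha₁ : P₁.TOK a₁) (hs : P.Inf i (!b) → HEq (a i (!b)) (a₁ j (!b)))
    (ho : ∀ j i' s, r j i' → P.Inf i' s → HEq (a i' s) (a₁ j s))
    (hz : ∀ i' ≠ i, (¬∃ j, r j i') → ∀ s, ∀ K₂ ∈ P.nk i', K₂.Inf s →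
      ∀ᶠ x in nd _ s, pr b (T (K₂.ψ x)) = 0) :
    Bl l.symm (fun x => pr b (T x)) (P.stH a) (P₁.stH a₁) := by
  refine bl_A0 O ok.bg ok₁.bg (lit_symm H.lit) (far_ends ok fun i' s K₂ h2 i2 => ?_)
  have e1 := eg_nk ok O R ha h2 i2
  by_cases e : i' = i
  · subst e
    obtain rfl := Option.mem_unique h2 hK
    by_cases e : s = b
    · subst e
      refine e1.zero ?_
      filter_upwards [nd_hi s τ, ev_J K₂ i2] with x h2 h3
      exact (hn.T_nk hT h3 x.1 s).trans h2.2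
    · obtain rfl := Bool.eq_not_of_ne e
      refine e1.one O (ok.en _) ((eg_nk ok₁ O R ha₁ h₁ ((cs_inf _ _).1 (hn.inf' i2))).cs h.symm
        (hs ⟨_, h2, i2⟩)) (δ := -δ) ?_
      filter_upwards [nd_lo b τ, ev_J K₂ i2] with x h2 h3
      exact ⟨(hn.T_nk hT h3 x.1 b).trans (pr_lo h2).1, (hn.sym h3 x.1).2.2⟩
  by_cases o : ∃ j, r j i'
  · obtain ⟨j', o⟩ := o
    obtain ⟨h', K₂', h3, i3, k⟩ := hlf_oth (h := h) H ok₁ h₁ hn hT o h2 i2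
    exact e1.one O (ok.en _) ((eg_nk ok₁ O R ha₁ h3 i3).cs h'.symm (ho _ _ _ o ⟨_, h2, i2⟩))
      (k.mono fun _ h => h.1)
  · exact e1.zero (hz i' e o s K₂ h2 i2)

omit H hT in
theorem hlf_blC (O : IxOp κ lam ν) (R : IxRep κ lam ν) (he : (en (ty i)).OK) {a₁} (ha₁ : P₁.TOK a₁)
    {a₀ : (en (ty i)).T} (hv : HEq a₀ (a₁ j b)) {D : (en (ty i)).cyl.F.H (7 + 1) (en (ty i)).cyl.A0.p →L[ℝ]
      (en (ty i)).cyl.F.H 7 (en (ty i)).cyl.A0.q} (z : ∀ s, EG Subtype.val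
        (fun u => (en (ty i)).cyl.F.val 7 _ (D ((en (ty i)).cyl.F.toH _ _ u))) id s a₀) :
    Bl (X := (en (ty i)).Z) (shK (cs h.symm K₁) (-δ)) (fun x => pr (!b) (x.2 - τ)) D (P₁.stH a₁) := by
  refine bl_A0 (X := (en (ty i)).Z) O he.cyl ok₁.bg (shK_lit _ _) (far_cyl fun s => ?_)
  by_cases e : s = b
  · subst e
    exact (z s).one O he ((eg_nk ok₁ O R ha₁ h₁ ((cs_inf _ _).1 hn.inf)).cs h.symm hv) (δ := -δ)
      ((nd_hi s τ).mono fun x hx => ⟨hx.1, rfl⟩)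
  · obtain rfl := Bool.eq_not_of_ne e
    exact (z _).zero ((nd_lo b τ).mono fun x hx => (pr_lo hx).2)

omit H ok₁ h₁ hn hT in
/-- **IX-ADD** -/
theorem ixAdd (O : IxOp κ lam ν) (S : IxSym κ lam ν) (R : IxRep κ lam ν) (F : IxFred κ lam ν)
    (C : IxCyl κ lam ν) : IxAdd.{u} κ lam ν := by
  intro X X₁ X₂ nc nc₁ nc₂ N N₁ N₂ _ _ _ 𝓔 en ty ty₁ ty₂ P P₁ P₂ i j₁ j₂ l r δ r₁ r₂ c ok ok₁ ok₂ H
    a a₁ a₂ t t₁ t₂ m bL bR o₁ o₂ n₁ n₂ i₁ i₂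
  obtain ⟨n, i₀⟩ := F _ _ _ _ P ok a t
  obtain ⟨-, K, hK, -⟩ := H.l'.nk
  obtain ⟨τ, w1, w2⟩ : ∃ τ : ℝ, (∀ a ∈ K.p, a + 1 ≤ τ) ∧ ∀ a ∈ K.q, τ + 1 ≤ a := by
    have := K.len
    cases e : K.p with
    | none => exact ⟨K.q.getD 0 - 1, by simp, fun a ha => by simp [Option.mem_def.1 ha]⟩
    | some a => exact ⟨a + 1, by simp, fun b hb => by linarith [this a e b hb]⟩
  obtain ⟨h₁, K₁, k₁, n1⟩ := hlf_hn H.l' hK w1 w2
  obtain ⟨h₂, K₂, k₂, n2⟩ := hlf_hn H.r' hK w1 w2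
  obtain ⟨T, tL, tR, r4⟩ := exists_r4 n1 n2 H.cov (H.cap K hK)
  obtain ⟨a₀, t₀, e₀⟩ := ex_T h₁ (t₁ j₁ true ⟨K₁, k₁, (cs_inf _ _).1 n1.inf⟩)
  obtain ⟨D, sy, fr, z⟩ := exists_z O S R C (ok.en i) t₀
  have q : P.TOK a := fun i s h => (t i s h).toTOK
  have q₁ : P₁.TOK a₁ := fun i s h => (t₁ i s h).toTOK
  have q₂ : P₂.TOK a₂ := fun i s h => (t₂ i s h).toTOK
  have := exc r4 (by omega) (R.x _ _ _ _ _ ok₁ _ q₁).2 (R.x _ _ _ _ _ ok₂ _ q₂).2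
    (R.x _ _ _ _ _ ok _ q).2 sy
    (hlf_blA (h := h₁) H.l' ok₁ k₁ n1 tL O R ok hK q q₁ bL o₁ fun i' e o s K' h' i'' => ?_)
    (hlf_blA (h := h₂) H.r' ok₂ k₂ n2 tR O R ok hK q q₂ bR o₂ fun i' e o s K' h' i'' => ?_)
    (hlf_blC (h := h₁) ok₁ k₁ n1 O R (ok.en i) q₁ e₀ z) (hlf_blC (h := h₂) ok₂ k₂ n2 O R (ok.en i) q₂ (e₀.trans m) z)
    i₁ i₂ i₀ fr
  · exact (show n = n₁ + n₂ by omega) ▸ i₀
  · obtain ⟨j, o⟩ := (((H.all i').resolve_left e).resolve_left (not_off h' i'')).resolve_left o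
    obtain ⟨_, _, -, -, k⟩ := hlf_oth (h := h₂) H.r' ok₂ k₂ n2 tR o h' i''
    exact k.mono fun _ h => h.2
  · obtain ⟨j, o⟩ := (((H.all i').resolve_left e).resolve_left (not_off h' i'')).resolve_right o
    obtain ⟨_, _, -, -, k⟩ := hlf_oth (h := h₁) H.l' ok₁ k₁ n1 tL o h' i''
    exact k.mono fun _ h => h.2

end Crest.Agent.X212.Add68
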