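import Crest.Agent.X212.Add68.Geo
import Crest.Agent.X212.Sw21.Cc

/-!
# Row 212, SW-ADD (helper68): additivity of the index
-/

set_option autoImplicit false
set_option linter.unusedSectionVars false
noncomputable section
open scoped Manifold ContDiff Topology InnerProductSpace
open MeasureTheory Set Function Filter

namespace Crest.Agent.X212.Add68
open An An.Pre Sob92 Cyf70 Sw Sw.En3 Map77.S Pb50 Cut71
open M (Mf pm)
open Module (finrank)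

variable {κ lam ν : Type} [Fintype κ] [Fintype lam] [Fintype ν] [DecidableEq ν]
  {d : Dt κ lam ν} [Fintype d.𝓔] {Sl : Type} [Fintype Sl] {X XL XR : Mf 4}
  {nc nr ncL nrL ncR nrR k : ℕ} {T TL TR : Type}
  [NormedAddCommGroup T] [NormedSpace ℝ T] [FiniteDimensional ℝ T]
  [NormedAddCommGroup TL] [NormedSpace ℝ TL] [FiniteDimensional ℝ TL]
  [NormedAddCommGroup TR] [NormedSpace ℝ TR] [FiniteDimensional ℝ TR]

theorem pe_cel {s : StS d Sl X} {σ : Cel s nc nr T} (h : Md σ) {n : ℤ} (hI : σ.Ind n) (hk : 7 ≤ k)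
    {t : T} (ht : t ∈ σ.Q) : ∃ D : DD (σ.P t).bg (σ.bs t) k,
      Pe (σ.P t) σ.β D (2 * nc + nr + (n + -(finrank ℝ T : ℤ))) :=
  pe_of (h.ok.ok t ht) (nf_of h hk 0 (h.toHy.y0 ht) (fr_Tc h hI hk 0 _))
    fun _ _ _ hK hs => bs_ev h.ok h.cr ht hK hs

theorem ze_nf {e : En3 κ lam ν} {v : e.YC} {τ : Pt e.Z.M κ ν 0} {n : ℤ}
    (h : Nf (X := e.Z) e.cyl τ (fz v) k n) (hD : ∀ c x, (τ0 e).D c x = τ.D c x)
    (hC : ∀ c x, (τ0 e).C c x = τ.C c x) : ∃ D : DD (X := e.Z) e.cyl (fz v) k, Ze v D n :=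
  h.imp fun _ h => ⟨h.1, h.2.1, fun _ => .of_forall fun x u =>
    ⟨by simp only [hD]; exact (h.2.2 u x).D, by simp only [hC]; exact (h.2.2 u x).C,
      (h.2.2 u x).G⟩⟩

theorem as_fz {i : d.𝓔 × Sl} {v : (d.e i.1).YC} (hv : (d.e i.1).cyl.Adm (fz v))
    {β : BCs fun i : d.𝓔 × Sl => d.e i.1} (hβ : ∀ b, β i b = v) :
    (d.cs Prod.fst i).As β (fz v) := ⟨hv, fun j s K hK _ => by
  obtain rfl := Sw21.cs_eq hK
  obtain rfl := Sw21.mem_cs.1 hK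
  rw [hβ]
  exact (asy_iff _ (Sw21.nk_inf _ s) hv hv).2 ⟨fun a => ⟨0, Hi.zero, .of_forall fun _ => sub_self _⟩,
    0, Hi.zero, .of_forall fun _ => sub_self _⟩⟩

theorem ze_of {i : d.𝓔 × Sl} (hM : MdStmt d (Prod.fst : d.𝓔 × Sl → d.𝓔) (d.e i.1).Z 0 0 T)
    (hB : CylB d (Prod.fst : d.𝓔 × Sl → d.𝓔) T) (he : ∀ j : d.𝓔 × Sl, (d.e j.1).OK)
    (hw : 0 < (d.e i.1).w) {v : (d.e i.1).YC} (hv : En3.Gd v) (hk : 7 ≤ k)
    {β : BCs fun i : d.𝓔 × Sl => d.e i.1} (hβ : ∀ b, β i b = v) :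
    ∃ D : DD (X := (d.e i.1).Z) (d.e i.1).cyl (fz v) k, Ze v D 0 := by
  have ok := Sw21.ccOK (T := T) i β he hw fun b => (hβ b).symm ▸ hv
  have md := hM _ _ ok
  let y : (d.cc Prod.fst i T 0 β).Pnt := ⟨(0, fz v), trivial, as_fz hv.crit.1 hβ⟩
  have nf := nf_of md hk 0 y (.of_bijective
    (hB i β ((hβ _).trans (hβ _).symm) md k hk 0 y (congrArg fz (hβ _).symm)))
  have e : ((d.cc Prod.fst i T 0 β).P y.1.1).bg = (d.e i.1).cyl := rfl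
  rw [e, show y.1.2 = fz v from rfl] at nf
  have key := fun c x => pt_ψ (P := (d.cc Prod.fst i T 0 β).P y.1.1) (ok.ok _ trivial).toOK 0 c
    (i := i) (K := (d.e i.1).nk) (Sw21.mem_cs.2 rfl) (x := x) ⟨nofun, nofun⟩ (by simp)
  exact ze_nf nf (fun c x => (key c x).1.symm) fun c x => (key c x).2.symm

theorem dim_of {A B : Type} [AddCommGroup A] [Module ℝ A] [AddCommGroup B] [Module ℝ B]
    (f : A →ᵃ[ℝ] B) (h : Bijective f) : finrank ℝ A = finrank ℝ B :=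
  (LinearEquiv.ofBijective f.linear (f.linear_bijective_iff.2 h)).finrank_eq

section
variable {s : StS d Sl X} {sL : StS d Sl XL} {sR : StS d Sl XR} {σ : Cel s nc nr T}
  {σL : Cel sL ncL nrL TL} {σR : Cel sR ncR nrR TR} {p : Spl X XL XR nc ncL ncR d Sl T TL TR}

theorem kind_cnt (h : p.Kind σ σL σR) : (∀ l, ∃ δ ∈ p.Δ, l ≤ δ.2 - δ.1) ∧
    (nr : ℤ) + 1 - finrank ℝ T = nrL - finrank ℝ TL + (nrR - finrank ℝ TR) := by
  have z : ∀ {T : Type} [AddCommGroup T] [Module ℝ T], Subsingleton T → finrank ℝ T = 0 :=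
    fun _ => Module.finrank_zero_of_subsingleton
  cases h with
  | fin _ _ h1 h2 h3 h4 h5 =>
    have := dim_of p.j.toAffineMap h4
    simp only [Module.finrank_prod, Module.finrank_self] at this
    exact ⟨fun l => (h5 l).exists.imp fun _ h => ⟨h.1, h.2.ge⟩, by omega⟩
  | out _ h1 h2 h3 h4 _ h5 =>
    have := dim_of (p.j.toAffineMap.comp (LinearMap.inl ℝ TL (TR × ℝ)).toAffineMap) h5
    have := z h3.2.2.1
    have := h3.1
    exact ⟨fun l => ⟨(0, l), h4 ▸ rfl, by simp⟩, by omega⟩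
  | inn _ h1 h2 h3 h4 _ h5 =>
    have := dim_of (p.j.toAffineMap.comp
      (LinearMap.inr ℝ TL (TR × ℝ) ∘ₗ LinearMap.inl ℝ TR ℝ).toAffineMap) h5
    have := z h3.2.2.1
    have := h3.1
    exact ⟨fun l => ⟨(-l, 0), h4 ▸ rfl, by simp⟩, by omega⟩
  | cyl _ h1 h2 h3 h4 =>
    have := z h1.2.2.1
    have := z h2.2.2.1
    have := z h3.2.2.1
    have := h1.1
    have := h2.1
    have := h3.1
    exact ⟨fun l => ⟨(0, l), h4 ▸ trivial, by simp⟩, by omega⟩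

end

theorem exists_win {p q : Option ℝ} (h : ∀ a ∈ p, ∀ b ∈ q, a + 2 ≤ b) :
    ∃ τ : ℝ, (∀ a ∈ p, a + 1 ≤ τ) ∧ ∀ a ∈ q, τ + 1 ≤ a := by
  cases p with
  | none => exact ⟨q.getD 0 - 1, by simp, fun a ha => by simp [Option.mem_def.1 ha]⟩
  | some a => exact ⟨a + 1, by simp, fun b hb => by linarith [h a rfl b hb]⟩

/-- **SW-ADD** -/
theorem addStmt (hM : MdStmt d (Prod.fst : d.𝓔 × Sl → d.𝓔) X nc nr T)
    (hML : MdStmt d (Prod.fst : d.𝓔 × Sl → d.𝓔) XL ncL nrL TL)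
    (hMR : MdStmt d (Prod.fst : d.𝓔 × Sl → d.𝓔) XR ncR nrR TR)
    (hMZ : ∀ ε, MdStmt d (Prod.fst : d.𝓔 × Sl → d.𝓔) (d.e ε).Z 0 0 T)
    (hB : CylB d (Prod.fst : d.𝓔 × Sl → d.𝓔) T)
    (hF : FredStmt d (Prod.fst : d.𝓔 × Sl → d.𝓔) X nc nr T) :
    AddStmt d Sl X XL XR nc nr ncL nrL ncR nrR T TL TR := by
  classical
  intro s sL sR σ σL σR p h ⟨tL, hL⟩ ⟨tR, hR⟩ nL nR iL iR
  obtain ⟨n, i0⟩ := hF s σ h.ok
  obtain ⟨l, hl⟩ := h.cut ∅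
  obtain ⟨k1, k2⟩ := kind_cnt h.kind
  obtain ⟨δ, hδ, k1⟩ := k1 l
  obtain ⟨ht, cov, int, HL, HR⟩ := hl δ hδ k1 tL hL tR hR
  obtain ⟨K, hK, KL, hKL, infL, -⟩ := HL.nk
  obtain ⟨-, -, KR, hKR, -⟩ := HR.nk
  obtain ⟨τ, w1, w2⟩ := exists_win K.len
  obtain ⟨D, pD⟩ := pe_cel (hM s σ h.ok) i0 le_rfl ht
  obtain ⟨DL, pL⟩ := pe_cel (hML _ _ h.okL) iL le_rfl hL
  obtain ⟨DR, pR⟩ := pe_cel (hMR _ _ h.okR) iR le_rfl hR
  obtain ⟨DZ, z⟩ := ze_of (i := (p.ε, p.aL)) (hMZ _) hB h.okL.site.en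
    (KL.hw ▸ (h.okL.w tL hL).symm ▸ h.okL.w0)
    (h.okL.gd _ _ ((inf_iff h.okL.toOK hL _ _).1 ⟨KL, hKL, infL⟩)) le_rfl
    (β := update σL.β (p.ε, p.aL) fun _ => σL.β (p.ε, p.aL) true) fun b => by rw [update_self]
  have inf := fun j b => (inf_iff h.ok.toOK ht j b).1
  have e := exc_geo ⟨h.ok.ok _ ht, h.okL.ok _ hL, ⟨_, _, _, HL⟩, hK, hKL, w1, w2⟩
    ⟨h.ok.ok _ ht, h.okR.ok _ hR, ⟨_, _, _, HR⟩, hK, hKR, w1, w2⟩ cov (int K hK) (by omega)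
    pD pL pR z rfl h.mid.symm (fun k => h.βL (inf _ _ ⟨K, hK, k⟩))
    (fun k => h.βR (inf _ _ ⟨K, hK, k⟩)) fun j b e k => h.βo j b e (inf j b k)
  have := Fintype.card_congr p.c
  simp only [Fintype.card_sum, Fintype.card_fin] at this
  exact (show n = nL + nR + 1 by omega) ▸ i0

end Crest.Agent.X212.Add68
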