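import Crest.Agent.X212.Add68.Pw
import Crest.Agent.X212.Pb50.Pt
import Crest.Agent.X212.Mod61.Hs

/-!
# Row 212, SW-ADD (helper68): the normal form of the linearisation on a piece
-/

set_option autoImplicit false
set_option linter.unusedSectionVars false
noncomputable section
open scoped Manifold ContDiff Topology InnerProductSpace
open MeasureTheory Set Function Filter

namespace Crest.Agent.X212.Add68
open An An.Pre Sob92 Cyf70 Sw Sw.En3 Map77.S Pb50 Cut71 Prm93 Fred93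
open Map77 (f2 s2 ext2 ps Tw Nc LH sumH)
open M (Mf pm)
open Module (finrank)

section alg
variable {A B K R H H1 : Type} [NormedAddCommGroup A] [NormedSpace ℝ A] [NormedAddCommGroup B]
  [NormedSpace ℝ B] [NormedAddCommGroup K] [NormedSpace ℝ K] [FiniteDimensional ℝ K]
  [NormedAddCommGroup R] [NormedSpace ℝ R] [NormedAddCommGroup H] [NormedSpace ℝ H]
  [NormedAddCommGroup H1] [NormedSpace ℝ H1]

theorem fr_e {e : H →L[ℝ] A × B × K} {j : A × B × K →L[ℝ] H} (h1 : ∀ u, j (e u) = u)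
    (h2 : ∀ v, e (j v) = (v.1, v.2.1, 0)) : Fred93.Fr e (-(finrank ℝ K : ℤ)) := by
  have h3 : ∀ t : K, j (0, 0, t) = 0 := fun t => by rw [← h1 (j _), h2]; exact map_zero j
  have h4 : ∀ u, (e u).2.2 = 0 := fun u => by rw [← h1 u, h2]
  let U : (H × K) ≃L[ℝ] A × B × K := ContinuousLinearEquiv.equivOfInverse
    (e.coprod (ContinuousLinearMap.inr ℝ A _ ∘L ContinuousLinearMap.inr ℝ B K))
    (j.prod (ContinuousLinearMap.snd ℝ B K ∘L ContinuousLinearMap.snd ℝ A _))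
    (fun x => Prod.ext (by simp [h1, h3]) (by simp [h4])) fun v => by simp [h2]
  exact (((Fred93.Fr.equiv U).comp Fred93.Fr.inl).congr fun u => by simp [U]).cast (by ring)

theorem fr_j (U1 : H1 ≃L[ℝ] A × B) (U2 : H ≃L[ℝ] H1 × R) {j : (A × B × K) × R →L[ℝ] H}
    (hj : ∀ y, j y = U2.symm (U1.symm (y.1.1, y.1.2.1), (1 / 2 : ℝ) • y.2)) :
    Fred93.Fr j (finrank ℝ K) := by
  let f : H × K →L[ℝ] H1 × R := (U2 : H →L[ℝ] H1 × R) ∘L ContinuousLinearMap.fst ℝ H K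
  let g : H × K →L[ℝ] A × B := (U1 : H1 →L[ℝ] A × B) ∘L ContinuousLinearMap.fst ℝ H1 R ∘L f
  let U : ((A × B × K) × R) ≃L[ℝ] H × K := ContinuousLinearEquiv.equivOfInverse
    (j.prod (ContinuousLinearMap.snd ℝ B K ∘L ContinuousLinearMap.snd ℝ A _ ∘L
      ContinuousLinearMap.fst ℝ _ R))
    (((ContinuousLinearMap.fst ℝ A B ∘L g).prod ((ContinuousLinearMap.snd ℝ A B ∘L g).prod
      (ContinuousLinearMap.snd ℝ H K))).prod ((2 : ℝ) • ContinuousLinearMap.snd ℝ H1 R ∘L f))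
    (fun x => by simp [f, g, hj, smul_smul]) fun v => by simp [f, g, hj, smul_smul]
  exact ((Fred93.Fr.fst.comp (Fred93.Fr.equiv U)).congr fun u => by simp [U]).cast (by ring)

end alg

section tw
variable {X : Mf 4} {ι : Type} [Fintype ι]
  {V W : Type} [NormedAddCommGroup V] [InnerProductSpace ℝ V] [FiniteDimensional ℝ V]
  [NormedAddCommGroup W] [InnerProductSpace ℝ W] [FiniteDimensional ℝ W] {k : ℕ}
  {F G : An.Fr X.I X.M ι} (h : Tw F G) {A : Op X.M ι V W}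
include h

theorem val_chg (hk : 4 ≤ k) {p : X.M → V →L[ℝ] V} (u : F.H k p) (x : X.M) :
    G.val k p (chg k p h.cmp u) x = F.val k p u x := by
  have := FiniteDimensional.complete ℝ V
  refine H_eq (f := fun u => G.ev k p x (chg k p h.cmp u)) (g := fun u => F.ev k p x u)
    (by fun_prop) (by fun_prop) (fun u => ?_) u
  rw [chg_toH]
  exact (congrFun (val_toH (Sup.of_tame h.t1.choose_spec) hk u) x).trans
    (congrFun (val_toH h.sup hk u) x).symm

/-- the operator on the scale of `G` -/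
def cj (L : F.H (k + 1) A.p →L[ℝ] F.H k A.q) : G.H (k + 1) A.p →L[ℝ] G.H k A.q :=
  (chg k A.q h.cmp : F.H k A.q →L[ℝ] G.H k A.q) ∘L L ∘L
    ((chg (k + 1) A.p h.cmp).symm : G.H (k + 1) A.p →L[ℝ] F.H (k + 1) A.p)

theorem sy_cj (hA : Nc F.toPre G.P A) {L : F.H (k + 1) A.p →L[ℝ] F.H k A.q}
    (g : ∃ n, L = LH F.toPre G.toPre k A.p A.q A + F.incl (k + 1) k A.q ∘L n) :
    Sy G A k (cj h L) := by
  obtain ⟨n, rfl⟩ := g
  refine ⟨h.t1, (h.good hA).imp fun _ => And.right,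
    (chg (k + 1) A.q h.cmp : F.H (k + 1) A.q →L[ℝ] G.H (k + 1) A.q) ∘L n ∘L
      ((chg (k + 1) A.p h.cmp).symm : G.H (k + 1) A.p →L[ℝ] F.H (k + 1) A.p), ?_⟩
  ext1 u
  simp [cj, h.chg_LH hA, chg_incl h.cmp (Nat.le_succ k)]

theorem val_cj (hk : 4 ≤ k) (L : F.H (k + 1) A.p →L[ℝ] F.H k A.q) (u : Sec X.I A.p) (x : X.M) :
    G.val k _ (cj h L (G.toH _ _ u)) x = F.val k _ (L (Mod61.ofV F.toPre (k + 1) A.p u.1)) x := by
  have := FiniteDimensional.complete ℝ V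
  rw [Mod61.ofV_eq h.sup (by omega) (val_toH h.sup (by omega) u), ← val_chg h hk]
  simp only [cj, ContinuousLinearMap.comp_apply, ContinuousLinearEquiv.coe_coe, chg_symm, chg_toH]

end tw

variable {κ lam ν : Type} [Fintype κ] [Fintype lam] [Fintype ν] [DecidableEq ν]
  {X : Mf 4} {nc nr : ℕ}

/-- the gauge fixed linearisation at `c` has index `n` -/
def Nf (b : Bg X.I X.M κ lam ν nc) (τ : Pt X.M κ ν nc) (c : Sw.Cfg X.M κ ν) (k : ℕ) (n : ℤ) : Prop :=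
  ∃ D : b.F.H (k + 1) (full b c).p →L[ℝ] b.F.H k (full b c).q, Sy b.F (full b c) k D ∧
    Fred93.Fr D n ∧ ∀ u x, Pw b τ c u.1 x (b.F.val k _ (D (b.F.toH _ _ u)) x)

variable {d : Dt κ lam ν} {N : Type} [Fintype N] {ty : N → d.𝓔}
  {T : Type} [NormedAddCommGroup T] [NormedSpace ℝ T] [FiniteDimensional ℝ T]
  {s : Pz X 0 fun i => d.e (ty i)} {σ : Cel s nc nr T} {k : ℕ} {n : ℤ}

theorem fr_jE (σ : Cel s nc nr T) (k : ℕ) : Fred93.Fr (jE σ k) (2 * nc + nr) :=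
  (fr_j (sumH s.bg.F.toPre k s.bg.pm s.bg.p2) (sumH s.bg.F.toPre k (ps s.bg.pm s.bg.p2) _)
    (j := jE σ k) fun y => by
      rw [Map77.sumH_symm_apply, Map77.sumH_symm_apply, map_smul]; rfl).cast (by
    simp [Module.finrank_prod, Module.finrank_pi_fintype, Complex.finrank_real_complex]; ring)

theorem fr_Tc (h : Md σ) (hI : σ.Ind n) (hk : 7 ≤ k) (q : d.W →₀ ℝ) (y : σ.Pnt) :
    Fred93.Fr (Tc σ k q (σ.pt k y)) (2 * nc + nr + (n + -(finrank ℝ T : ℤ))) := by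
  obtain ⟨r, hr, f⟩ := hI k hk q y
  obtain rfl : r = row σ k (σ.pt k y) := ContinuousLinearMap.ext fun v =>
    val_injective (Sup.of_tame h.ok.site.bg.tame.choose_spec) (by omega)
      ((hr v).trans ((h.row k hk).2 y v).symm)
  exact (fr_jE σ k).comp (f.comp (fr_e (h.je k _ y.2.1).1 (h.je k _ y.2.1).2))

theorem nf_of (h : Md σ) (hk : 7 ≤ k) (q : d.W →₀ ℝ) (y : σ.Pnt)
    (f : Fred93.Fr (Tc σ k q (σ.pt k y)) n) :
    Nf (σ.P y.1.1).bg ((σ.P y.1.1).pt q) y.1.2 k n := by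
  have t := h.tw _ y.2.1
  have key : ∀ (u : Sec X.I (pC s.bg)) x, Pw (σ.P y.1.1).bg ((σ.P y.1.1).pt q) y.1.2 u.1 x
      (s.bg.F.val k _ (Tc σ k q (σ.pt k y) (Mod61.ofV _ _ _ u.1)) x) := fun u x =>
    let ⟨a, b, c⟩ := (h.pw k hk q y u.1 (Mod61.Hs_sec t.sup u)).2.2 x _ rfl
    ⟨a, b, c⟩
  rw [← h.bg_eq _ y.2.1] at key ⊢
  refine ⟨cj t (A := full (bg σ y.1.1) y.1.2) (Tc σ k q (σ.pt k y)),
    sy_cj t (h.op y).2 (h.gainL k hk q y), f.conj _ _, fun u x => ?_⟩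
  rw [val_cj t (by omega)]
  exact key u x

/-- far out the base configuration is the limit -/
theorem bs_ev (h : σ.toFam.OK) (hβ : s.Cr σ.β) {t : T} (ht : t ∈ σ.Q) {i : N} {b : Bool}
    {K : Nk (d.e (ty i)) (σ.P t).bg} (hK : K ∈ (σ.P t).nk i) (hb : K.Inf b) :
    ∀ᶠ x in nd _ b, At K.ψ (fz (σ.β i b)) (σ.bs t) x := by
  obtain ⟨K₀, h0, e⟩ := inf_site h ht hK hb
  have hb0 := (ng_inf e).1 hb
  rw [ng_ψ e]
  filter_upwards [ev_ψ K₀ hb0, base_ev h.site (g := fun j b x => (σ.β j b).Φ x.1) h0 hb0,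
    eventually_all.2 fun a => base_ev h.site (g := fun j b => (fz (σ.β j b)).a a) h0 hb0]
    with x hx h1 h2
  refine ⟨fun a => ?_, h1.symm⟩
  simp only [Cel.bs, S_nk h ht h0 hx]
  exact ((adm_base hβ).pa a _).trans (h2 a) |>.symm

end Crest.Agent.X212.Add68
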