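import Crest.Agent.X212.Add68.Exc
import Crest.Agent.X212.Map77.S0
import Crest.Agent.X212.Cut71.Hf
import Crest.Agent.X212.Pb50.End

/-!
# Row 212, SW-ADD (helper68): the linearisation at function level, and on the ends
-/

set_option autoImplicit false
set_option linter.unusedSectionVars false
noncomputable section
open scoped Manifold ContDiff Topology InnerProductSpace
open MeasureTheory Set Function Filter

namespace Crest.Agent.X212.Add68
open An Sob92 Cyf70 Sw Sw.En3 Map77.S Pb50 Cut71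
open Map77 (f2 s2 ext2 ps)
open M (Mf pm)

variable {κ lam ν : Type} [Fintype κ] [Fintype lam] [Fintype ν] [DecidableEq ν]
  {X X' X'' : Mf 4} {nc nc' nc'' : ℕ}

/-- `z` is the value at `x` of the linearisation at `c` on `u` -/
structure Pw (b : Bg X.I X.M κ lam ν nc) (τ : Pt X.M κ ν nc) (c : Sw.Cfg X.M κ ν)
    (u : X.M → Cf κ ν) (x : X.M) (z : Ef κ ν) : Prop where
  D : HasDerivAt (fun r => b.eD (vr c u r) x - τ.D (vr c u r) x) (f2 _ _ (f2 _ _ z)) 0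
  C : HasDerivAt (fun r => b.eC (vr c u r) x - τ.C (vr c u r) x) (s2 _ _ (f2 _ _ z)) 0
  G : s2 _ _ z = lG b c u x

section pw
variable {b : Bg X.I X.M κ lam ν nc} {τ : Pt X.M κ ν nc} {c : Sw.Cfg X.M κ ν}
  {u : X.M → Cf κ ν} {x : X.M} {z z' : Ef κ ν}
  {b' : Bg X'.I X'.M κ lam ν nc'} {τ' : Pt X'.M κ ν nc'} {c' : Sw.Cfg X'.M κ ν}
  {u' : X'.M → Cf κ ν} {φ : OpenPartialHomeomorph X.M X'.M}

theorem Pw.unique (h : Pw b τ c u x z) (h' : Pw b τ c u x z') : z = z' :=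
  ext2 (ext2 (h.D.unique h'.D) (h.C.unique h'.C)) (h.G.trans h'.G.symm)

theorem Pw.zero : Pw b τ c (fun _ => 0) x 0 := by
  have e : ∀ r, vr c (fun _ => 0) r = c := fun r => by simp [vr]
  refine ⟨?_, ?_, ?_⟩
  · simp only [e, map_zero]; exact hasDerivAt_const _ _
  · simp only [e, map_zero]; exact hasDerivAt_const _ _
  · simp [lG, Pre.D_def, dv_const]

theorem Pw.lit (h : b.Lit b' φ) (hv : b.F.IsVol) (hv' : b'.F.IsVol) (hx : x ∈ φ.source)
    (e : ∀ᶠ y in 𝓝 x, At φ c c' y ∧ u y = u' (φ y))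
    (eD : ∀ r, τ.D (vr c u r) x = τ'.D (vr c' u' r) (φ x))
    (eC : ∀ r, τ.C (vr c u r) x = τ'.C (vr c' u' r) (φ x)) (k : Pw b' τ' c' u' (φ x) z) :
    Pw b τ c u x z := by
  have a : ∀ r, ∀ᶠ y in 𝓝 x, At φ (vr c u r) (vr c' u' r) y := fun r => e.mono fun y hy =>
    ⟨fun i => by simp only [vr, hy.1.1, hy.2], by simp only [vr, hy.1.2, hy.2]⟩
  refine ⟨?_, ?_, k.G.trans ?_⟩
  · simpa only [eD, eD_φ h hx (a _)] using k.D
  · simpa only [eC, eC_φ h hx (a _)] using k.C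
  · rw [lG, lG, h.w, h.J, e.self_of_nhds.1.2, e.self_of_nhds.2]
    refine congrArg (· + _) (Finset.sum_congr rfl fun i _ => ?_)
    rw [(rel h).dv hx hv hv', (rel h).D hx i (u' := fun y => co i (u' y))
      (e.mono fun y hy => by rw [hy.2])]

end pw

/-! ### literal maps -/

section lit
variable {b : Bg X.I X.M κ lam ν nc} {b' : Bg X'.I X'.M κ lam ν nc'}
  {φ : OpenPartialHomeomorph X.M X'.M} (h : b.Lit b' φ)
include h

theorem co_p1 : Co φ b.p1 b'.p1 := fun x hx => by simp only [Bg.p1, h.P _ _ x hx]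

theorem co_pC : Co φ (pC b) (pC b') := fun x hx => by
  rw [pC, pC, ps, ps, co_p1 h x hx, pp_φ h hx]

theorem co_pE : Co φ (pE b) (pE b') := fun x hx => by
  rw [pE, pE, ps, ps, ps, ps, p2_φ h hx, Bg.pm, Bg.pm, vol_φ h hx, h.p x hx]

theorem co_σ (c : Sw.Cfg X.M κ ν) (c' : Sw.Cfg X'.M κ ν) (a : Option κ) :
    Co φ ((full b c).σ a) ((full b' c').σ a) := fun x hx => by
  show (pE b x).comp ((σF b a x).comp (pC b x)) =
    (pE b' (φ x)).comp ((σF b' a (φ x)).comp (pC b' (φ x)))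
  rw [co_pC h x hx, co_pE h x hx]
  simp only [σF, h.ρ a x hx, h.P _ _ x hx]

theorem lit_trans {b'' : Bg X''.I X''.M κ lam ν nc''} {ψ} (h' : b'.Lit b'' ψ)
    (h1 : φ.source = univ) (h2 : φ.target = univ) : b.Lit b'' (φ.trans ψ) := by
  have m : Measurable φ := (continuousOn_univ.1 (h1 ▸ φ.continuousOn)).measurable
  refine ⟨⟨h'.iso.sm.comp (h.iso.sm.mono inter_subset_left) fun x hx => hx.2,
    h.iso.sm'.comp (h'.iso.sm'.mono inter_subset_left) fun x hx => hx.2, fun a x hx => ?_, ?_⟩,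
    fun i j x hx => (h'.P i j _ hx.2).trans (h.P i j x hx.1),
    fun i j k l x hx => (h'.o i j k l _ hx.2).trans (h.o i j k l x hx.1), h'.J.trans h.J,
    h'.w.trans h.w, fun x hx => (h'.p _ hx.2).trans (h.p x hx.1),
    fun i x hx => (h'.ρ i _ hx.2).trans (h.ρ i x hx.1),
    fun i x hx => (h'.A i _ hx.2).trans (h.A i x hx.1),
    fun x hx => (h'.ms _ hx.2).trans (h.ms x hx.1), fun x hx => (h'.om _ hx.2).trans (h.om x hx.1)⟩
  · have a1 := (iso_smAt h.iso hx.1).mdifferentiableAt (by simp)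
    have a2 := (iso_smAt h'.iso (show φ x ∈ _ from hx.2)).mdifferentiableAt (by simp)
    rw [OpenPartialHomeomorph.coe_trans, mfderiv_comp x a2 a1]
    exact (congrArg _ (h.iso.e a x hx.1)).trans (h'.iso.e a _ hx.2)
  · have a1 := h.iso.μ
    rw [h1, h2, Measure.restrict_univ, Measure.restrict_univ] at a1
    have a2 : AEMeasurable ψ (b'.F.μ.restrict ψ.source) :=
      ψ.continuousOn.aemeasurable ψ.open_source.measurableSet
    have a3 : (b.F.μ.restrict (φ ⁻¹' ψ.source)).map φ = b'.F.μ.restrict ψ.source := by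
      rw [← a1, Measure.restrict_map m ψ.open_source.measurableSet]
    rw [OpenPartialHomeomorph.trans_source, OpenPartialHomeomorph.trans_target, h1, h2, univ_inter,
      preimage_univ, inter_univ, ← h'.iso.μ, ← a3, OpenPartialHomeomorph.coe_trans,
      AEMeasurable.map_map_of_aemeasurable (a3 ▸ a2) m.aemeasurable]

end lit

/-! ### the cylinder -/

variable {e : En3 κ lam ν}

variable (e) in
/-- the fixed terms on the cylinder -/
def τ0 : Pt e.Z.M κ ν 0 := En3.pt (fun _ : Empty => none) 0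

/-- the linearisation on the cylinder -/
abbrev PZ (c : e.ZC) (u : e.Y.M × ℝ → Cf κ ν) (x : e.Y.M × ℝ) (z : Ef κ ν) : Prop :=
  Pw (X := e.Z) e.cyl (τ0 e) c u x z

theorem slab {Y : Type} [TopologicalSpace Y] {p : Y × ℝ → Prop} {x : Y × ℝ}
    (h : ∀ᶠ r in 𝓝 x.2, ∀ y, p (y, r)) : ∀ᶠ y in 𝓝 x, p y :=
  (continuous_snd.continuousAt.eventually h).mono fun y hy => hy y.1

theorem nd_slab {s : Bool} {p : e.Y.M × ℝ → Prop} (h : ∀ᶠ x in nd e.Y.M s, p x) :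
    ∀ᶠ x in nd e.Y.M s, ∀ᶠ r in 𝓝 x.2, ∀ y, p (y, r) := by
  obtain ⟨T, -, hT⟩ := nd_basis.eventually_iff.1 h
  exact nd_basis.eventually_iff.2 ⟨T, trivial, fun x hx =>
    ((isOpen_lt continuous_const (by fun_prop : Continuous fun r => pm s * r)).eventually_mem
      hx).mono fun r hr y => hT hr⟩

theorem nd_sh {s : Bool} {p : e.Y.M × ℝ → Prop} (δ : ℝ) (h : ∀ᶠ x in nd e.Y.M s, p x) :
    ∀ᶠ x in nd e.Y.M s, p (x.1, x.2 + δ) := by
  obtain ⟨T, -, hT⟩ := nd_basis.eventually_iff.1 h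
  exact nd_basis.eventually_iff.2 ⟨T - pm s * δ, trivial, fun x hx => hT (by
    have : T - pm s * δ < pm s * x.2 := hx
    show T < pm s * (x.2 + δ)
    linarith)⟩

theorem PZ.sh (hv : e.D.Z.IsVol) {c c' : e.ZC} {u u' : e.Y.M × ℝ → Cf κ ν} {x : e.Y.M × ℝ} {δ : ℝ}
    {z : Ef κ ν} (h : ∀ᶠ r in 𝓝 x.2, ∀ y, At (sH e δ) c c' (y, r) ∧ u (y, r) = u' (y, r + δ))
    (k : PZ c' u' (x.1, x.2 + δ) z) : PZ c u x z := by
  have h0 := h.self_of_nhds
  have a : ∀ r, sl (vr c u r) x.2 = sl (vr c' u' r) (x.2 + δ) := fun r => by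
    refine YC.ext (funext fun i => funext fun y => ?_) (funext fun y => ?_)
    · simp only [sl, vr, (h0 y).1.1, (h0 y).2, sH_apply]
    · simp only [sl, vr, (h0 y).1.2, (h0 y).2, sH_apply]
  refine Pw.lit (X := e.Z) (X' := e.Z) (sH_lit δ) hv hv trivial (slab h) (fun r => ?_) (fun r => ?_) k
  · exact congrArg₂ (fun v w => e.b (nm v) • e.m.ρ none x.1 w) (a r)
      (congrFun (congrArg YC.Φ (a r)) x.1)
  · show -deriv e.f (hol (sl (vr c u r) x.2)) • e.ζ x.1 + 0 =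
      -deriv e.f (hol (sl (vr c' u' r) (x.2 + δ))) • e.ζ x.1 + 0
    rw [a]

section ends
variable {S S' M M' : Type} (j : S → M → Cf κ ν) (A : S → M → Ef κ ν)
  (j' : S' → M' → Cf κ ν) (A' : S' → M' → Ef κ ν)

/-- far out on the end `ψ` the operator `A` is the linearisation at `v` -/
def EF (ψ : e.Y.M × ℝ → M) (s : Bool) (v : e.YC) : Prop :=
  ∀ᶠ x in nd e.Y.M s, ∀ u, PZ (fz v) (fun z => j u (ψ z)) x (A u (ψ x))

/-- the operators correspond at `x` -/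
def Mt (φ : M → M') (f : M → ℝ) (x : M) : Prop :=
  ∀ u w, (∀ x, j w x = f x • j' u (φ x)) → A w x = f x • A' u (φ x)

variable {j A j' A'} {ψ : e.Y.M × ℝ → M} {ψ' : e.Y.M × ℝ → M'} {s : Bool} {v : e.YC}
  {φ : M → M'} {f : M → ℝ} (hv : e.D.Z.IsVol)
include hv

theorem EF.zero (h : EF j A ψ s v) (hf : ∀ᶠ x in nd e.Y.M s, f (ψ x) = 0) :
    ∀ᶠ x in nd e.Y.M s, Mt j A j' A' φ f (ψ x) := by
  filter_upwards [h, nd_slab hf] with x h1 h2 u w k
  rw [h2.self_of_nhds x.1, zero_smul]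
  exact (h1 w).unique (PZ.sh hv (δ := 0) (c' := fz v) (u' := fun _ => 0) (h2.mono fun r hr y =>
    ⟨⟨fun i => by cases i <;> rfl, rfl⟩, by rw [k, hr, zero_smul]⟩) Pw.zero)

theorem EF.one (h : EF j A ψ s v) (h' : EF j' A' ψ' s v) {δ : ℝ}
    (hf : ∀ᶠ x in nd e.Y.M s, f (ψ x) = 1 ∧ φ (ψ x) = ψ' (x.1, x.2 + δ)) :
    ∀ᶠ x in nd e.Y.M s, Mt j A j' A' φ f (ψ x) := by
  filter_upwards [h, nd_sh δ h', nd_slab hf] with x h1 h3 h2 u w k
  rw [(h2.self_of_nhds x.1).1, (h2.self_of_nhds x.1).2, one_smul]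
  exact (h1 w).unique (PZ.sh hv (c' := fz v) (h2.mono fun r hr y =>
    ⟨⟨fun i => by cases i <;> rfl, rfl⟩, by rw [k, (hr y).1, (hr y).2, one_smul]⟩) (h3 u))

end ends

theorem far_cyl {p : e.Y.M × ℝ → Prop} (h : ∀ s, ∀ᶠ x in nd e.Y.M s, p x) :
    ∃ C, IsCompact C ∧ ∀ x ∉ C, p x := by
  obtain ⟨T, -, hT⟩ := nd_basis.eventually_iff.1 (h true)
  obtain ⟨T', -, hT'⟩ := nd_basis.eventually_iff.1 (h false)
  refine ⟨univ ×ˢ Icc (-T') T, isCompact_univ.prod isCompact_Icc, fun x hx => ?_⟩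
  rcases lt_or_ge T x.2 with k | k
  · exact hT (by simpa [pm] using k)
  · exact hT' (by
      have : x.2 < -T' := lt_of_not_ge fun k' => hx ⟨trivial, k', k⟩
      show T' < pm false * x.2
      simp only [pm, Bool.false_eq_true, if_false]; linarith)

theorem far_ends {N : Type} [Fintype N] {e : N → En3 κ lam ν} {P : Pz X nc e} (hP : P.OK)
    {p : X.M → Prop} (h : ∀ i s, ∀ K ∈ P.nk i, K.Inf s → ∀ᶠ x in nd (e i).Y.M s, p (K.ψ x)) :
    ∃ C, IsCompact C ∧ ∀ x ∉ C, p x := by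
  have h1 : ∀ q : N × Bool, ∃ T : ℝ, ∀ K ∈ P.nk q.1, K.Inf q.2 → ∀ x ∈ univ ×ˢ K.far q.2 T,
      p (K.ψ x) := fun ⟨i, s⟩ => by
    by_cases hK : ∃ K ∈ P.nk i, K.Inf s
    · obtain ⟨K, hK, hs⟩ := hK
      obtain ⟨T, -, hT⟩ := nd_basis.eventually_iff.1 (h i s K hK hs)
      refine ⟨T, fun K' hK' _ x hx => ?_⟩
      obtain rfl := Option.mem_unique hK hK'
      exact hT hx.2.2
    · exact ⟨0, fun K h1 h2 => (hK ⟨K, h1, h2⟩).elim⟩
  choose T hT using h1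
  obtain ⟨T', hT'⟩ := Finite.exists_le T
  refine ⟨_, hP.cpt T', fun z hz => ?_⟩
  simp only [Pz.core, mem_ofPred, not_forall, not_not] at hz
  obtain ⟨i, s, K, hK, hs, x, hx, rfl⟩ := hz
  exact hT (i, s) K hK hs x (far_mono K (hT' _) hx)

theorem ev_deep {b : Bg X.I X.M κ lam ν nc} (K : Nk e b) {s : Bool} (h : K.Inf s) (D : ℝ) :
    ∀ᶠ x in nd e.Y.M s, x.2 ∈ K.deep D := by
  cases s
  · have hp : K.p = none := h
    refine nd_basis.eventually_iff.2 ⟨D - K.q.getD 0, trivial, fun x hx =>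
      ⟨by simp [hp], fun a ha => ?_⟩⟩
    obtain ⟨a', ha', rfl⟩ := Option.mem_map.1 ha
    have : D - a' < -x.2 := by simpa [pm, show K.q = some a' from ha'] using hx
    linarith
  · have hq : K.q = none := h
    refine nd_basis.eventually_iff.2 ⟨K.p.getD 0 + D, trivial, fun x hx =>
      ⟨fun a ha => ?_, by simp [hq]⟩⟩
    obtain ⟨a', ha', rfl⟩ := Option.mem_map.1 ha
    simpa [pm, show K.p = some a' from ha'] using hx

variable {d : Dt κ lam ν} {N : Type} [Fintype N] {ty : N → d.𝓔} {P : Pc d X nc ty}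

/-- from a piece to the cylinder -/
theorem Pw.nk (hP : P.toPz.OK) {i : N} {K : Nk (d.e (ty i)) P.bg} (hK : K ∈ P.nk i)
    (hv : (d.e (ty i)).D.Z.IsVol) {c : Sw.Cfg X.M κ ν} {u : X.M → Cf κ ν} {x} (hx : x.2 ∈ K.deep 2)
    {z : Ef κ ν} (k : Pw P.bg (P.pt 0) c u (K.ψ x) z) : PZ (K.pb c) (fun y => u (K.ψ y)) x z :=
  Pw.lit (X := (d.e (ty i)).Z) (nk_lit K) hv hP.vol (K.mem_src.2 (deep_J K two_pos hx))
    (.of_forall fun _ => ⟨At.pb _ _ _, rfl⟩)
    (fun r => (pt_ψ hP 0 (vr c u r) hK hx (by simp)).1.symm)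
    (fun r => (pt_ψ hP 0 (vr c u r) hK hx (by simp)).2.symm) k

theorem ef_nk (hP : P.toPz.OK) {i : N} {K : Nk (d.e (ty i)) P.bg} (hK : K ∈ P.nk i) {s : Bool}
    (hs : K.Inf s) (hv : (d.e (ty i)).D.Z.IsVol) {c : Sw.Cfg X.M κ ν} {v : (d.e (ty i)).YC}
    (hc : ∀ᶠ x in nd _ s, At K.ψ (fz v) c x) {S : Type} {j : S → X.M → Cf κ ν}
    {A : S → X.M → Ef κ ν} (h : ∀ u x, Pw P.bg (P.pt 0) c (j u) x (A u x)) : EF j A K.ψ s v := by
  filter_upwards [ev_deep K hs 2, nd_slab hc] with x h1 h2 u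
  refine PZ.sh hv (δ := 0) (c' := K.pb c) (u' := fun y => j u (K.ψ y)) (h2.mono fun r hr y => ?_) ?_
  · simpa only [At, sH_apply, add_zero, and_true, Sw.Cfg.pb] using hr y
  · rw [add_zero]; exact (h u _).nk hP hK hv h1

end Crest.Agent.X212.Add68
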