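import Crest.Agent.X212.Add68.Hv

/-!
# Row 212 (helper68): excision data from time functions; local operators; unions of charts
-/

set_option autoImplicit false
set_option linter.unusedSectionVars false
noncomputable section
open scoped Manifold ContDiff Topology InnerProductSpace
open MeasureTheory Set Function Filter

namespace Crest.Agent.X212.Add68
open An An.Pre Sob92 Cyf70 Pb50 Cut71
open M (Mf pm)

variable {X X' X'' X1 X2 X3 X4 : Mf 4} {ι : Type} [Fintype ι]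
  {V W : Type} [NormedAddCommGroup V] [InnerProductSpace ℝ V] [FiniteDimensional ℝ V]
  [NormedAddCommGroup W] [InnerProductSpace ℝ W] [FiniteDimensional ℝ W] {k : ℕ}

/-- a time function -/
structure Ti (F : Pre X.I X.M ι) (t : X.M → ℝ) : Prop where
  cont : Continuous t
  cb : ∀ c, F.Cb fun x => pr c (t x)

/-- a partial isometry that preserves the time and covers the side `c` -/
structure Li (F : Pre X.I X.M ι) (F' : Pre X'.I X'.M ι) (φ : OpenPartialHomeomorph X.M X'.M)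
    (c : Bool) (t : X.M → ℝ) (t' : X'.M → ℝ) : Prop where
  iso : Iso F F' φ
  s : ∀ x, pm c * t x ≤ 1 / 2 → x ∈ φ.source
  s' : ∀ x, pm c * t' x ≤ 1 / 2 → x ∈ φ.target
  e : Co φ t t'

theorem abs_le' {t : ℝ} (h : |t| ≤ 1 / 2) (c : Bool) : pm c * t ≤ 1 / 2 :=
  (le_abs_self _).trans ((abs_pm c t).trans_le h)

theorem pr_mid' {t : ℝ} (h : pr true t ≠ 0) (h' : pr false t ≠ 0) : |t| ≤ 1 / 2 :=
  abs_le.2 ⟨by simpa [pm] using (pr_ne' (b := true) h').le, by simpa [pm] using (pr_ne h).le⟩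

theorem Li.lk {F : Pre X.I X.M ι} {F' : Pre X'.I X'.M ι} {φ c t t'} (h : Li F F' φ c t t')
    (k : Ti F t) (k' : Ti F' t') : Lk F F' φ (fun x => pr c (t x)) fun x => pr c (t' x) :=
  ⟨h.iso, k.cb c, k'.cb c,
    fun x hx => h.s x (ts_le (g := fun x => pm c * t x) (continuous_const.mul k.cont)
      (fun _ => pr_ne) hx),
    fun x hx => h.s' x (ts_le (g := fun x => pm c * t' x) (continuous_const.mul k'.cont)
      (fun _ => pr_ne) hx), fun x hx => congrArg _ (h.e x hx)⟩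

/-- four manifolds with times -/
structure T4 (F1 : Pre X1.I X1.M ι) (F2 : Pre X2.I X2.M ι) (F3 : Pre X3.I X3.M ι)
    (F4 : Pre X4.I X4.M ι) (a : OpenPartialHomeomorph X3.M X1.M) (b : OpenPartialHomeomorph X3.M X2.M)
    (c : OpenPartialHomeomorph X4.M X1.M) (d : OpenPartialHomeomorph X4.M X2.M)
    (t1 : X1.M → ℝ) (t2 : X2.M → ℝ) (t3 : X3.M → ℝ) (t4 : X4.M → ℝ) : Prop where
  h1 : Ti F1 t1
  h2 : Ti F2 t2
  h3 : Ti F3 t3
  h4 : Ti F4 t4
  la : Li F3 F1 a true t3 t1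
  lb : Li F3 F2 b false t3 t2
  lc : Li F4 F1 c false t4 t1
  ld : Li F4 F2 d true t4 t2
  sq : ∀ z, |t4 z| ≤ 1 / 2 → b (a.symm (c z)) = d z

namespace T4
variable {F1 : Pre X1.I X1.M ι} {F2 : Pre X2.I X2.M ι} {F3 : Pre X3.I X3.M ι} {F4 : Pre X4.I X4.M ι}
  {a b c d t1 t2 t3 t4} (h : T4 F1 F2 F3 F4 a b c d t1 t2 t3 t4)
include h

theorem w1 {z} (hz : |t4 z| ≤ 1 / 2) : z ∈ c.source ∧ c z ∈ a.target ∧ t3 (a.symm (c z)) = t4 z := by
  have k1 := h.lc.s z (abs_le' hz _)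
  have k2 := h.la.s' (c z) (abs_le' (h.lc.e z k1 ▸ hz) _)
  exact ⟨k1, k2, (h.la.e.symm _ k2).symm.trans (h.lc.e z k1).symm⟩

theorem w3 {x} (hx : |t3 x| ≤ 1 / 2) : ∃ z ∈ {z | |t4 z| ≤ 1 / 2}, x = a.symm (c z) := by
  have k1 := h.la.s x (abs_le' hx _)
  have k2 : |t1 (a x)| ≤ 1 / 2 := h.la.e x k1 ▸ hx
  have k3 := h.lc.s' _ (abs_le' k2 _)
  exact ⟨c.symm (a x), (h.lc.e.symm _ k3 ▸ k2 :), by rw [c.right_inv k3, a.left_inv k1]⟩

theorem r4 : R4 F1 F2 F3 F4 a b c d (fun x => pr true (t1 x)) (fun x => pr false (t1 x))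
    (fun x => pr true (t2 x)) (fun x => pr false (t2 x)) (fun x => pr true (t3 x))
    (fun x => pr false (t3 x)) (fun x => pr true (t4 x)) fun x => pr false (t4 x) := by
  refine ⟨h.la.lk h.h3 h.h1, h.lb.lk h.h3 h.h2, h.lc.lk h.h4 h.h1, h.ld.lk h.h4 h.h2,
    fun _ => pr_sq _, fun _ => pr_sq _, fun _ => pr_sq _, fun _ => pr_sq _,
    {z | |t4 z| ≤ 1 / 2}, fun z => a.symm (c z), fun z hz => ?_, fun x k k' => ?_, fun x k k' => ?_,
    fun x k k' => h.w3 (pr_mid' k k'), fun _ => pr_mid'⟩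
  · obtain ⟨k1, k2, k3⟩ := h.w1 hz
    exact ⟨k1, h.ld.s z (abs_le' hz _), a.map_target k2, h.lb.s _ (abs_le' (k3 ▸ hz) _),
      a.right_inv k2, h.sq z hz, congrArg _ k3, congrArg _ k3⟩
  · have m := pr_mid' k k'
    have k3 := h.lc.s' _ (abs_le' m _)
    exact ⟨c.symm x, (h.lc.e.symm _ k3 ▸ m :), (c.right_inv k3).symm⟩
  · have m := pr_mid' k k'
    have k3 := h.ld.s' _ (abs_le' m _)
    exact ⟨d.symm x, (h.ld.e.symm _ k3 ▸ m :), (d.right_inv k3).symm⟩

theorem cpt (k : IsCompact {z | |t4 z| ≤ 1 / 2}) : IsCompact {x | |t3 x| ≤ 1 / 2} :=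
  (k.image_of_continuousOn (f := fun z => a.symm (c z)) (a.continuousOn_symm.comp
    (c.continuousOn.mono fun _ hz => (h.w1 hz).1) fun _ hz => (h.w1 hz).2.1)).of_isClosed_subset
    (isClosed_le h.h3.cont.abs continuous_const) fun _ hx =>
      let ⟨z, hz, e⟩ := h.w3 hx
      ⟨z, hz, e.symm⟩

end T4

theorem pr_ev {M : Type} [TopologicalSpace M] {t : M → ℝ} (h : Continuous t) {x : M}
    (hx : ¬|t x| ≤ 1 / 2) (c : Bool) : ∀ᶠ y in 𝓝 x, pr c (t y) = pr c (t x) := by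
  obtain ⟨b, hb⟩ : ∃ b, pm b * t x < -(1 / 2) := by
    rcases lt_abs.1 (not_le.1 hx) with k | k
    exacts [⟨false, by simpa [pm] using k⟩, ⟨true, by simp only [pm, if_true]; linarith⟩]
  exact ((continuous_const.mul h).continuousAt.eventually_lt_const hb).mono fun y hy =>
    pr_eq hy.le hb.le c

section loc
variable {F : An.Fr X.I X.M ι} {F' : An.Fr X'.I X'.M ι} {φ : OpenPartialHomeomorph X.M X'.M}
  {A : Op X.M ι V W} {A' : Op X'.M ι V W}

theorem Sy.loc (h : ∃ C, F.Tame C) (h' : ∃ C, A.Good F C) : Sy F A k (A.H F k) :=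
  ⟨h, h', 0, by simp⟩

theorem app_loc (h : Iso F.toPre F'.toPre φ) (pσ : ∀ a, Co φ (A.σ a) (A'.σ a)) (pB : Co φ A.B A'.B)
    {x : X.M} (hx : x ∈ φ.source) {w : X.M → V} {u : X'.M → V} (e : ∀ᶠ y in 𝓝 x, w y = u (φ y)) :
    A.app F w x = A'.app F' u (φ x) := by
  simp only [Op.app, Pre.op, (Pj41.fRel_of_iso h).D hx _ e, pσ _ x hx, pB x hx, e.self_of_nhds]

theorem app_zero {x : X.M} {w : X.M → V} (e : ∀ᶠ y in 𝓝 x, w y = 0) : A.app F w x = 0 := by
  simp [Op.app, Pre.op, D_def, dv_congr (v := fun _ => 0) e, dv_const, e.self_of_nhds]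

theorem bl_loc {c t t'} (h : Li F.toPre F'.toPre φ c t t') (ht : Continuous t)
    (hc : IsCompact {x | |t x| ≤ 1 / 2}) (S : Sy F A k (A.H F k)) (S' : Sy F' A' k (A'.H F' k))
    (hk : 4 ≤ k) (pp : Co φ A.p A'.p) (pq : Co φ A.q A'.q) (pσ : ∀ a, Co φ (A.σ a) (A'.σ a))
    (pB : Co φ A.B A'.B) : Bl φ (fun x => pr c (t x)) (A.H F k) (A'.H F' k) := by
  have := FiniteDimensional.complete ℝ W
  refine ⟨pp, pq, pσ, _, hc, fun u w e x hx => ?_⟩
  rw [RepT_toH (rep_OpH S.good.choose_spec k).1, RepT_toH (rep_OpH S'.good.choose_spec k).1,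
    val_toH (Sup.of_tame S.tame.choose_spec) hk, val_toH (Sup.of_tame S'.tame.choose_spec) hk]
  have ev := pr_ev ht hx c
  rcases le_or_gt (pm c * t x) (1 / 2) with k | k
  · have k1 := (pr_lo (b := c) (t := t x) (by
      have := lt_abs.1 ((not_le.1 (show ¬|t x| ≤ 1 / 2 from hx)).trans_eq (abs_pm c (t x)).symm)
      rcases this with e | e <;> linarith)).1
    rw [k1, one_smul]
    exact app_loc h.iso pσ pB (h.s x k) (ev.mono fun y hy => by rw [e, hy, k1, one_smul])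
  · have k1 : pr c (t x) = 0 := by_contra fun e => (pr_ne e).not_gt k
    rw [k1, zero_smul]
    exact app_zero (ev.mono fun y hy => by rw [e, hy, k1, zero_smul])

theorem iso_trans {F'' : An.Fr X''.I X''.M ι} {ψ} (h : Iso F.toPre F'.toPre φ)
    (h' : Iso F'.toPre F''.toPre ψ) (hv : F.IsVol) (hv' : F''.IsVol) :
    Iso F.toPre F''.toPre (φ.trans ψ) :=
  Pj41.FRel.iso (((Pj41.fRel_of_iso h).mono (φ.trans ψ).open_source inter_subset_left).trans
    (Pj41.fRel_of_iso h') fun _ hx => hx.2) hv hv'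

theorem cb_loc (h : Iso F'.toPre F.toPre φ.symm) {f : X.M → ℝ} {f' : X'.M → ℝ}
    (e : ∀ x ∈ φ.source, f x = f' (φ x)) (c : F'.Cb f') : ∃ C : ℕ → ℝ, ∀ x ∈ φ.source,
      ContMDiffAt X.I 𝓘(ℝ, ℝ) ∞ f x ∧ ∀ w, ‖F.Dw w f x‖ ≤ C w.length := by
  obtain ⟨C, hC⟩ := c
  refine ⟨C, fun x hx => ?_⟩
  have r := Pj41.fRel_of_iso (iso_symm h)
  have ev : ∀ᶠ y in 𝓝 x, f y = f' (φ y) := (φ.open_source.eventually_mem hx).mono e
  exact ⟨(r.sm hx (hC.1 _)).congr_of_eventuallyEq ev, fun w =>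
    (r.Dw hx w ev).symm ▸ hC.2 _ w le_rfl _⟩

end loc

/-- the union of partial homeomorphisms with disjoint sources and targets -/
theorem exists_union {A B J : Type} [TopologicalSpace A] [TopologicalSpace B] [Nonempty J]
    (φ : J → OpenPartialHomeomorph A B) (hs : Pairwise fun i j => Disjoint (φ i).source (φ j).source)
    (ht : Pairwise fun i j => Disjoint (φ i).target (φ j).target) :
    ∃ Φ : OpenPartialHomeomorph A B, Φ.source = ⋃ j, (φ j).source ∧ Φ.target = ⋃ j, (φ j).target ∧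
      ∀ j, EqOn Φ (φ j) (φ j).source := by
  have key : ∀ {A : Type} {S : J → Set A}, (Pairwise fun i j => Disjoint (S i) (S j)) →
      ∀ j, ∀ x ∈ S j, Classical.epsilon (fun i => x ∈ S i) = j := fun hS j x hx => by_contra fun e =>
    disjoint_left.1 (hS e) (Classical.epsilon_spec (p := fun i => x ∈ _) ⟨j, hx⟩) hx
  let f : A → B := fun x => φ (Classical.epsilon fun i => x ∈ (φ i).source) x
  let g : B → A := fun x => (φ (Classical.epsilon fun i => x ∈ (φ i).target)).symm x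
  have hf : ∀ j, EqOn f (φ j) (φ j).source := fun j x hx => by simp only [f, key hs j x hx]
  have hg : ∀ j, EqOn g (φ j).symm (φ j).target := fun j x hx => by simp only [g, key ht j x hx]
  refine ⟨⟨⟨⟨f, g, ⋃ j, (φ j).source, ⋃ j, (φ j).target, ?_, ?_, ?_, ?_⟩, ?_, ?_⟩,
    isOpen_iUnion fun j => (φ j).open_source, isOpen_iUnion fun j => (φ j).open_target⟩,
    rfl, rfl, hf⟩ <;> intro x hx <;> obtain ⟨j, hj⟩ := mem_iUnion.1 hx
  · exact mem_iUnion.2 ⟨j, hf j hj ▸ (φ j).map_source hj⟩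
  · exact mem_iUnion.2 ⟨j, hg j hj ▸ (φ j).map_target hj⟩
  · rw [hf j hj, hg j ((φ j).map_source hj), (φ j).left_inv hj]
  · rw [hg j hj, hf j ((φ j).map_target hj), (φ j).right_inv hj]
  · exact (((φ j).continuousAt hj).congr (((φ j).open_source.eventually_mem hj).mono
      fun y hy => (hf j hy).symm)).continuousWithinAt
  · exact (((φ j).continuousAt_symm hj).congr (((φ j).open_target.eventually_mem hj).mono
      fun y hy => (hg j hy).symm)).continuousWithinAt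

theorem iso_union {F : An.Fr X.I X.M ι} {F' : An.Fr X'.I X'.M ι} {J : Type}
    {φ : J → OpenPartialHomeomorph X.M X'.M} {Φ : OpenPartialHomeomorph X.M X'.M}
    (h : ∀ j, Iso F.toPre F'.toPre (φ j)) (hs : Φ.source = ⋃ j, (φ j).source)
    (e : ∀ j, EqOn Φ (φ j) (φ j).source) (hv : F.IsVol) (hv' : F'.IsVol) : Iso F.toPre F'.toPre Φ := by
  have k := fun j => (Pj41.fRel_of_iso (h j)).congr (e j)
  refine Pj41.FRel.iso ⟨Φ.open_source, fun x hx => ?_, fun a x hx => ?_⟩ hv hv' <;>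
    obtain ⟨j, hj⟩ := mem_iUnion.1 (hs ▸ hx)
  exacts [(k j).ld x hj, (k j).e a x hj]

end Crest.Agent.X212.Add68
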